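import Mathlib

/-!
# P002: Burnside's theorem on algebras of endomorphisms
-/

namespace Vale.Agent.P002.Free

/-- An algebra of endomorphisms without invariant subspace contains every endomorphism. -/
theorem burnside {V : Type} [AddCommGroup V] [Module ℂ V] [FiniteDimensional ℂ V] [Nontrivial V]
    (S : Subalgebra ℂ (Module.End ℂ V))
    (h : ∀ W : Submodule ℂ V, (∀ a ∈ S, ∀ v ∈ W, a v ∈ W) → W = ⊥ ∨ W = ⊤) : S = ⊤ := by
  classical
  have : IsSimpleModule S V := by
    refine isSimpleModule_iff S V |>.2 ⟨fun N => ?_⟩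
    rcases h (N.restrictScalars ℂ) (fun a ha v hv => N.smul_mem ⟨a, ha⟩ hv) with h0 | h1
    · exact Or.inl ((Submodule.restrictScalars_eq_bot_iff ℂ S V).1 h0)
    · exact Or.inr ((Submodule.restrictScalars_eq_top_iff ℂ S V).1 h1)
  rw [eq_top_iff]
  intro f _
  have hcomm : ∀ (g : Module.End S V) (v : V), f (g v) = g (f v) := by
    intro g v
    obtain ⟨c, rfl⟩ := (IsSimpleModule.algebraMap_end_bijective_of_isAlgClosed ℂ).2 g
    simp [Module.algebraMap_end_apply]
  let φ : Module.End (Module.End S V) V :=
    { toFun := f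
      map_add' := f.map_add
      map_smul' := fun g v => hcomm g v }
  let b := Module.finBasis ℂ V
  obtain ⟨r, hr⟩ := jacobson_density φ (Finset.univ.image b)
  have hfr : f = (r : Module.End ℂ V) :=
    b.ext fun i => hr (b i) (Finset.mem_image_of_mem b (Finset.mem_univ i))
  rw [hfr]
  exact r.2

end Vale.Agent.P002.Free
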