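import Vale.Agent.P002.Mat
import Vale.Agent.P002.Free.Burnside

/-!
# P002: block form of semisimple representations, and the converse
-/

namespace Vale.Agent.P002.Free

open Matrix Module Submodule

variable {r : ℕ}

/-- Block diagonal for the labelling b. -/
def BD {R : Type} [Zero R] (b : Fin r → Fin r) (M : Matrix (Fin r) (Fin r) R) : Prop :=
  ∀ k l, b k ≠ b l → M k l = 0

/-- Each block of the matrices in S spans the whole matrix algebra of the block. -/
def Irred (b : Fin r → Fin r) (S : Set (Matrix (Fin r) (Fin r) ℂ)) : Prop :=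
  ∀ k l, b k = b l → ∃ X ∈ span ℂ S, ∀ k' l', b k' = b k → b l' = b k →
    X k' l' = if k' = k ∧ l' = l then 1 else 0

/-- The coordinate subspace of a set of labels. -/
def coord (b : Fin r → Fin r) (J : Set (Fin r)) : Submodule ℂ (Fin r → ℂ) where
  carrier := {v | ∀ k, b k ∉ J → v k = 0}
  add_mem' := fun {u v} hu hv k hk => by simp [hu k hk, hv k hk]
  zero_mem' := fun k _ => rfl
  smul_mem' := fun c v hv k hk => by simp [hv k hk]

theorem coord_invariant {b : Fin r → Fin r} {M : Matrix (Fin r) (Fin r) ℂ} (hM : BD b M)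
    (J : Set (Fin r)) {v : Fin r → ℂ} (hv : v ∈ coord b J) : M *ᵥ v ∈ coord b J := by
  intro k hk
  rw [Matrix.mulVec, dotProduct]
  refine Finset.sum_eq_zero fun l _ => ?_
  by_cases h : b k = b l
  · rw [hv l (h ▸ hk), mul_zero]
  · rw [hM k l h, zero_mul]

theorem bd_span {b : Fin r → Fin r} {S : Set (Matrix (Fin r) (Fin r) ℂ)} (h : ∀ M ∈ S, BD b M) :
    ∀ X ∈ span ℂ S, BD b X := by
  intro X hX
  induction hX using Submodule.span_induction with
  | mem M hM => exact h M hM
  | zero => exact fun _ _ _ => rfl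
  | add M N _ _ hM hN => exact fun k l e => by simp [hM k l e, hN k l e]
  | smul c M _ hM => exact fun k l e => by simp [hM k l e]

theorem mulVec_span {S : Set (Matrix (Fin r) (Fin r) ℂ)} {W : Submodule ℂ (Fin r → ℂ)}
    (h : ∀ M ∈ S, ∀ v ∈ W, M *ᵥ v ∈ W) : ∀ X ∈ span ℂ S, ∀ v ∈ W, X *ᵥ v ∈ W := by
  intro X hX
  induction hX using Submodule.span_induction with
  | mem M hM => exact h M hM
  | zero => exact fun v _ => by simp
  | add M N _ _ hM hN => exact fun v hv => by rw [Matrix.add_mulVec]; exact add_mem (hM v hv) (hN v hv)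
  | smul c M _ hM => exact fun v hv => by rw [Matrix.smul_mulVec]; exact smul_mem _ c (hM v hv)

/-- Block diagonal with irreducible blocks is semisimple. -/
theorem ss_of_blocks {Γ : Type} [Group Γ] (ρ : Γ →* Matrix.SpecialLinearGroup (Fin r) ℂ)
    (b : Fin r → Fin r) (hbd : ∀ g, BD b (ρ g : Matrix (Fin r) (Fin r) ℂ))
    (hirr : Irred b (Set.range fun g => (ρ g : Matrix (Fin r) (Fin r) ℂ))) : SS ρ := by
  classical
  intro W hW
  have hX := mulVec_span (W := W) (S := Set.range fun g => (ρ g : Matrix (Fin r) (Fin r) ℂ))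
    (by rintro _ ⟨g, rfl⟩; exact hW g)
  obtain ⟨J, hJ, hJmax⟩ : ∃ J : Finset (Fin r), W ⊓ coord b J = ⊥ ∧
      ∀ J' : Finset (Fin r), J ⊆ J' → W ⊓ coord b J' = ⊥ → J' ⊆ J := by
    obtain ⟨J, hJ, hmax⟩ := Finset.exists_max_image
      (Finset.univ.filter fun J : Finset (Fin r) => W ⊓ coord b (J : Set (Fin r)) = ⊥)
      Finset.card ⟨∅, Finset.mem_filter.2 ⟨Finset.mem_univ _, eq_bot_iff.2 fun v hv =>
        (Submodule.mem_bot ℂ).2 (funext fun k => hv.2 k (by simp))⟩⟩
    exact ⟨J, (Finset.mem_filter.1 hJ).2, fun J' hsub h => (Finset.eq_of_subset_of_card_le hsub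
      (hmax J' (Finset.mem_filter.2 ⟨Finset.mem_univ _, h⟩))).ge⟩
  refine ⟨coord b J, fun g v hv => coord_invariant (hbd g) _ hv,
    ⟨disjoint_iff.2 hJ, codisjoint_iff.2 (eq_top_iff.2 ?_)⟩⟩
  rw [← (Pi.basisFun ℂ (Fin r)).span_eq, span_le]
  rintro _ ⟨k, rfl⟩
  by_cases hk : b k ∈ J
  · refine mem_sup_right fun i hi => ?_
    have : i ≠ k := fun e => hi (e ▸ hk)
    simp [Pi.basisFun_apply, this]
  have hne : W ⊓ coord b ↑(insert (b k) J) ≠ ⊥ := fun h =>
    hk (hJmax _ (Finset.subset_insert _ _) h (Finset.mem_insert_self _ _))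
  obtain ⟨v, ⟨hvW, hvc⟩, hv0⟩ := Submodule.exists_mem_ne_zero_of_ne_bot hne
  obtain ⟨l, hl, hvl⟩ : ∃ l, b l = b k ∧ v l ≠ 0 := by
    by_contra hno
    push Not at hno
    refine hv0 ((Submodule.mem_bot ℂ).1 (hJ ▸ (⟨hvW, fun i hi => ?_⟩ : v ∈ W ⊓ coord b ↑J)))
    by_cases e : b i = b k
    · exact hno i e
    · exact hvc i (by simpa [e] using hi)
  obtain ⟨X, hXs, hXe⟩ := hirr k l hl.symm
  have hXbd := bd_span (b := b) (by rintro _ ⟨g, rfl⟩; exact hbd g) X hXs
  have hrest : X *ᵥ v - v l • Pi.basisFun ℂ (Fin r) k ∈ coord b ↑J := by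
    intro i hi
    by_cases e : b i = b k
    · rw [Pi.sub_apply, Pi.smul_apply, Matrix.mulVec, dotProduct, Finset.sum_eq_single l]
      · rw [hXe i l e hl]
        by_cases h : i = k
        · subst h; simp
        · simp [h, Pi.basisFun_apply]
      · intro j _ hj
        by_cases e' : b j = b k
        · rw [hXe i j e e']
          simp [hj]
        · rw [hXbd i j (fun h => e' (h ▸ e)), zero_mul]
      · simp
    · have h1 := coord_invariant hXbd _ hvc i (by simpa [e] using hi)
      have h2 : i ≠ k := fun h => e (by rw [h])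
      simp [h1, h2, Pi.basisFun_apply]
  have h1 : v l • Pi.basisFun ℂ (Fin r) k ∈ W ⊔ coord b ↑J := by
    rw [← sub_sub_cancel (X *ᵥ v) (v l • Pi.basisFun ℂ (Fin r) k)]
    exact sub_mem (mem_sup_left (hX X hXs v hvW)) (mem_sup_right hrest)
  simpa [smul_smul, inv_mul_cancel₀ hvl] using smul_mem _ (v l)⁻¹ h1

section Decomp

variable {Γ : Type} [Group Γ] (ρ : Γ →* Matrix.SpecialLinearGroup (Fin r) ℂ)

/-- Invariance of a subspace. -/
def Inv' (U : Submodule ℂ (Fin r → ℂ)) : Prop :=
  ∀ g, ∀ v ∈ U, (ρ g : Matrix (Fin r) (Fin r) ℂ) *ᵥ v ∈ U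

theorem decomp (hss : SS ρ) : ∀ (d : ℕ) (U : Submodule ℂ (Fin r → ℂ)), finrank ℂ U = d →
    Inv' ρ U → ∃ (ι : Type) (_ : Fintype ι) (v : ι → Fin r → ℂ) (lab : ι → ι),
      LinearIndependent ℂ v ∧ span ℂ (Set.range v) = U ∧
      ∀ j, Inv' ρ (span ℂ (v '' {i | lab i = j})) ∧
        ∀ S ≤ span ℂ (v '' {i | lab i = j}), Inv' ρ S →
          S = ⊥ ∨ S = span ℂ (v '' {i | lab i = j}) := by
  intro d
  induction d using Nat.strong_induction_on with
  | _ d ih =>
    intro U hd hU
    classical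
    by_cases hirr : ∀ S ≤ U, Inv' ρ S → S = ⊥ ∨ S = U
    · let b := Module.finBasis ℂ U
      have hrange : span ℂ (Set.range fun i => (b i : Fin r → ℂ)) = U := by
        rw [show (Set.range fun i => (b i : Fin r → ℂ)) = U.subtype '' Set.range b from
          Set.range_comp U.subtype b, span_image, b.span_eq, Submodule.map_top, range_subtype]
      rcases isEmpty_or_nonempty (Fin (finrank ℂ U)) with h | h
      · exact ⟨_, inferInstance, fun i => (b i : Fin r → ℂ), id,
          b.linearIndependent.map' U.subtype U.ker_subtype, hrange, fun j => isEmptyElim j⟩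
      obtain ⟨i₀⟩ := h
      refine ⟨_, inferInstance, fun i => (b i : Fin r → ℂ), fun _ => i₀,
        b.linearIndependent.map' U.subtype U.ker_subtype, hrange, fun j => ?_⟩
      by_cases hj : i₀ = j
      · simp only [hj, Set.ofPred_true, Set.image_univ]
        rw [hrange]
        exact ⟨hU, hirr⟩
      · simp only [hj, Set.ofPred_false, Set.image_empty, span_empty]
        exact ⟨fun g v hv => by simp [(Submodule.mem_bot ℂ).1 hv],
          fun S hS _ => Or.inl (le_bot_iff.1 hS)⟩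
    push Not at hirr
    obtain ⟨S, hSU, hS, hS0, hS1⟩ := hirr
    obtain ⟨S', hS', hc⟩ := hss S hS
    let T := U ⊓ S'
    have hT : Inv' ρ T := fun g v hv => ⟨hU g v hv.1, hS' g v hv.2⟩
    have hsup : S ⊔ T = U := by
      rw [show T = S' ⊓ U from inf_comm _ _, ← sup_inf_assoc_of_le S' hSU,
        codisjoint_iff.1 hc.codisjoint, top_inf_eq]
    have hdis : Disjoint S T := hc.disjoint.mono_right inf_le_right
    have hTU : T < U := lt_of_le_of_ne inf_le_left fun h => hS0 (eq_bot_iff.2 fun v hv =>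
      (Submodule.mem_bot ℂ).2 (Submodule.disjoint_def.1 hdis v hv (h.symm ▸ hSU hv)))
    obtain ⟨ι₁, _, v₁, l₁, hli₁, hs₁, h₁⟩ := ih _
      (hd ▸ Submodule.finrank_lt_finrank_of_lt (lt_of_le_of_ne hSU hS1)) S rfl hS
    obtain ⟨ι₂, _, v₂, l₂, hli₂, hs₂, h₂⟩ := ih _
      (hd ▸ Submodule.finrank_lt_finrank_of_lt hTU) T rfl hT
    refine ⟨ι₁ ⊕ ι₂, inferInstance, Sum.elim v₁ v₂, Sum.map l₁ l₂,
      hli₁.sum_type hli₂ (by rwa [hs₁, hs₂]), ?_, fun j => ?_⟩
    · rw [Set.Sum.elim_range, span_union, hs₁, hs₂, hsup]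
    rcases j with j | j
    · rw [show Sum.elim v₁ v₂ '' {i | Sum.map l₁ l₂ i = Sum.inl j} = v₁ '' {i | l₁ i = j} by
        ext x; simp]
      exact h₁ j
    · rw [show Sum.elim v₁ v₂ '' {i | Sum.map l₁ l₂ i = Sum.inr j} = v₂ '' {i | l₂ i = j} by
        ext x; simp]
      exact h₂ j

theorem exists_block_form (hss : SS ρ) :
    ∃ (P : Matrix.SpecialLinearGroup (Fin r) ℂ) (b : Fin r → Fin r),
      (∀ g, BD b ((P⁻¹ * ρ g * P : Matrix.SpecialLinearGroup (Fin r) ℂ) :
        Matrix (Fin r) (Fin r) ℂ)) ∧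
      Irred b (Set.range fun g => ((P⁻¹ * ρ g * P : Matrix.SpecialLinearGroup (Fin r) ℂ) :
        Matrix (Fin r) (Fin r) ℂ)) := by
  classical
  obtain ⟨ι, hι, v, lab, hli, hspan, hblk⟩ := decomp ρ hss _ ⊤ rfl fun _ _ _ => mem_top
  let B0 : Basis ι ℂ (Fin r → ℂ) := Basis.mk hli hspan.ge
  have hcard : Fintype.card ι = r := by
    rw [← Module.finrank_eq_card_basis B0, Module.finrank_fin_fun]
  let e : ι ≃ Fin r := Fintype.equivFinOfCardEq hcard
  let B : Basis (Fin r) ℂ (Fin r → ℂ) := B0.reindex e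
  let b : Fin r → Fin r := fun k => e (lab (e.symm k))
  let Q : Matrix (Fin r) (Fin r) ℂ := (Pi.basisFun ℂ (Fin r)).toMatrix B
  have hdet : Q.det ≠ 0 := by
    have := (Pi.basisFun ℂ (Fin r)).invertibleToMatrix B
    exact (Matrix.isUnit_det_of_invertible _).ne_zero
  obtain ⟨u, hu⟩ : ∃ u : ℂ, u ^ r * Q.det = 1 := by
    rcases Nat.eq_zero_or_pos r with hr | hr
    · subst hr; exact ⟨1, by simp⟩
    · obtain ⟨u, hu⟩ := IsAlgClosed.exists_pow_nat_eq (Q.det)⁻¹ hr
      exact ⟨u, by rw [hu, inv_mul_cancel₀ hdet]⟩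
  let P : Matrix.SpecialLinearGroup (Fin r) ℂ :=
    ⟨u • Q, by rw [Matrix.det_smul, Fintype.card_fin, hu]⟩
  have hu0 : Fin r → u ≠ 0 := by
    rintro k rfl
    simp [zero_pow (k.pos.ne' : r ≠ 0)] at hu
  have hPv : ∀ k, (P : Matrix (Fin r) (Fin r) ℂ) *ᵥ Pi.single k 1 = u • v (e.symm k) := by
    intro k
    funext i
    simp [P, Q, B, B0, Basis.toMatrix_apply, Matrix.mulVec_single]
  -- the labelled spans are the images of the coordinate subspaces
  have hmap : ∀ (j : Fin r) (w : Fin r → ℂ), w ∈ coord b {j} ↔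
      (P : Matrix (Fin r) (Fin r) ℂ) *ᵥ w ∈ span ℂ (v '' {i | lab i = e.symm j}) := by
    intro j w
    have hexp : (P : Matrix (Fin r) (Fin r) ℂ) *ᵥ w = ∑ i, (u * w (e i)) • v i := by
      conv_lhs => rw [← (Pi.basisFun ℂ (Fin r)).sum_repr w]
      rw [Matrix.mulVec_sum, ← Equiv.sum_comp e]
      refine Finset.sum_congr rfl fun i _ => ?_
      simp [Matrix.mulVec_smul, hPv, smul_smul, mul_comm]
    constructor
    · intro hw
      rw [hexp]
      refine sum_mem fun i _ => ?_
      by_cases h : lab i = e.symm j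
      · exact smul_mem _ _ (subset_span ⟨i, h, rfl⟩)
      · rw [hw (e i) (fun hh => h (by simpa [b, Equiv.eq_symm_apply] using hh)), mul_zero,
          zero_smul]
        exact zero_mem _
    · intro hw k hk
      have hk' : e.symm k ∉ {i | lab i = e.symm j} := fun h => hk (by
        simp only [Set.mem_singleton_iff, b]
        rw [show lab (e.symm k) = e.symm j from h, Equiv.apply_symm_apply])
      have hz : B0.repr ((P : Matrix (Fin r) (Fin r) ℂ) *ᵥ w) (e.symm k) = 0 := by
        by_contra hne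
        rw [show v = ⇑B0 from (Basis.coe_mk _ _).symm] at hw
        exact hk' (B0.mem_span_image.1 hw (Finsupp.mem_support_iff.2 hne))
      rw [hexp] at hz
      have : B0.repr (∑ i, (u * w (e i)) • v i) (e.symm k) = u * w k := by
        rw [show v = ⇑B0 from (Basis.coe_mk _ _).symm, B0.repr_sum_self, Equiv.apply_symm_apply]
      exact (mul_eq_zero.1 (this.symm.trans hz)).resolve_left (hu0 k)
  let ρ' : Γ →* Matrix.SpecialLinearGroup (Fin r) ℂ :=
    MonoidHom.mk' (fun a => P⁻¹ * ρ a * P) fun a c => by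
      simp only [map_mul, mul_assoc, mul_inv_cancel_left]
  have hcomm : ∀ g w, (P : Matrix (Fin r) (Fin r) ℂ) *ᵥ
      ((ρ' g : Matrix (Fin r) (Fin r) ℂ) *ᵥ w) =
      (ρ g : Matrix (Fin r) (Fin r) ℂ) *ᵥ ((P : Matrix (Fin r) (Fin r) ℂ) *ᵥ w) := by
    intro g w
    rw [Matrix.mulVec_mulVec, Matrix.mulVec_mulVec, ← Matrix.SpecialLinearGroup.coe_mul,
      ← Matrix.SpecialLinearGroup.coe_mul]
    rw [show P * ρ' g = ρ g * P by
      show P * (P⁻¹ * ρ g * P) = _
      group]
  have hinv : ∀ g j, ∀ w ∈ coord b {j}, (ρ' g : Matrix (Fin r) (Fin r) ℂ) *ᵥ w ∈ coord b {j} := by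
    intro g j w hw
    rw [hmap, hcomm]
    exact (hblk _).1 g _ ((hmap j w).1 hw)
  have hbd : ∀ g, BD b (ρ' g : Matrix (Fin r) (Fin r) ℂ) := by
    intro g k l hkl
    have h := hinv g (b l) (Pi.single l 1) (fun i hi => by
      have : i ≠ l := fun h => hi (by simp [h])
      simp [this]) k (by simpa using hkl)
    simpa [Matrix.mulVec_single] using h
  refine ⟨P, b, hbd, fun k l hkl => ?_⟩
  let V' := {i // b i = b k} → ℂ
  have : Nontrivial V' := by
    have : Nonempty {i // b i = b k} := ⟨⟨k, rfl⟩⟩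
    infer_instance
  let φ : Γ →* Matrix {i // b i = b k} {i // b i = b k} ℂ :=
    { toFun := fun g => (ρ' g : Matrix (Fin r) (Fin r) ℂ).submatrix Subtype.val Subtype.val
      map_one' := by
        ext x y
        simp [Matrix.one_apply, Subtype.ext_iff]
      map_mul' := fun g g' => by
        ext x y
        rw [map_mul, Matrix.SpecialLinearGroup.coe_mul, Matrix.mul_apply, Matrix.submatrix_apply,
          Matrix.mul_apply]
        refine Eq.trans ?_ (Finset.sum_subtype (Finset.univ.filter fun i => b i = b k) (by simp)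
          (fun i => (ρ' g : Matrix (Fin r) (Fin r) ℂ) x i * (ρ' g' : Matrix (Fin r) (Fin r) ℂ) i y))
        symm
        refine Finset.sum_filter_of_ne ?_
        intro i _ hi
        by_contra h
        exact hi (by rw [hbd g x i (fun e => h (e ▸ x.2)), zero_mul]) }
  let ψ := (Matrix.toLinAlgEquiv' (R := ℂ) (n := {i // b i = b k})).toAlgHom
  let A : Subalgebra ℂ (Module.End ℂ V') := (Algebra.adjoin ℂ (Set.range φ)).map ψ
  have hA : A = ⊤ := by
    refine burnside A fun W hW => ?_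
    let ext0 : V' →ₗ[ℂ] (Fin r → ℂ) :=
      { toFun := fun w i => if h : b i = b k then w ⟨i, h⟩ else 0
        map_add' := fun x y => by
          funext i
          by_cases h : b i = b k
          · simp only [Pi.add_apply, dif_pos h]; rfl
          · simp [h]
        map_smul' := fun c x => by
          funext i
          by_cases h : b i = b k
          · simp only [Pi.smul_apply, dif_pos h]; rfl
          · simp [h] }
    let Pl := Matrix.mulVecLin (P : Matrix (Fin r) (Fin r) ℂ)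
    have hle : (W.map ext0).map Pl ≤ span ℂ (v '' {i | lab i = e.symm (b k)}) := by
      rintro _ ⟨_, ⟨w, hw, rfl⟩, rfl⟩
      refine (hmap (b k) _).1 fun i hi => ?_
      exact dif_neg (by simpa using hi)
    have hinvW : Inv' ρ ((W.map ext0).map Pl) := by
      rintro g _ ⟨_, ⟨w, hw, rfl⟩, rfl⟩
      refine ⟨(ρ' g : Matrix (Fin r) (Fin r) ℂ) *ᵥ ext0 w,
        ⟨ψ (φ g) w, hW _ ⟨φ g, Algebra.subset_adjoin ⟨g, rfl⟩, rfl⟩ w hw, ?_⟩, hcomm g _⟩
      funext i
      by_cases h : b i = b k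
      · show (if h : b i = b k then ψ (φ g) w ⟨i, h⟩ else 0) = _
        rw [dif_pos h, Matrix.mulVec, dotProduct]
        rw [← Finset.sum_filter_of_ne (p := fun x => b x = b k) fun x _ hx => by
          by_contra h'
          exact hx (by simp [ext0, h'])]
        rw [Finset.sum_subtype (Finset.univ.filter fun x => b x = b k) (p := fun x => b x = b k)
          (by simp)]
        show ((φ g) *ᵥ w) ⟨i, h⟩ = _
        rw [Matrix.mulVec, dotProduct]
        refine Finset.sum_congr rfl fun x _ => ?_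
        show _ = _ * (if h : b x.1 = b k then w ⟨x.1, h⟩ else 0)
        rw [dif_pos x.2]
        rfl
      · show (if h : b i = b k then ψ (φ g) w ⟨i, h⟩ else 0) = _
        rw [dif_neg h]
        exact (coord_invariant (hbd g) {b k} (fun x hx => dif_neg (by simpa using hx)) i
          (by simpa using h)).symm
    have hPinj : Function.Injective Pl := fun x y hxy => by
      have h' := congrArg (fun z => ((P⁻¹ : Matrix.SpecialLinearGroup (Fin r) ℂ) :
        Matrix (Fin r) (Fin r) ℂ) *ᵥ z) hxy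
      simp only [Pl, Matrix.mulVecLin_apply, Matrix.mulVec_mulVec,
        ← Matrix.SpecialLinearGroup.coe_mul, inv_mul_cancel, Matrix.SpecialLinearGroup.coe_one,
        Matrix.one_mulVec] at h'
      exact h'
    have hei : Function.Injective ext0 := fun x y hxy => funext fun i => by
      simpa [ext0, i.2] using congrFun hxy i.1
    rcases (hblk (e.symm (b k))).2 _ hle hinvW with h | h
    · exact Or.inl (Submodule.map_injective_of_injective hei (Submodule.map_injective_of_injective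
        hPinj (by rw [h]; simp)))
    · refine Or.inr (eq_top_iff.2 fun w _ => ?_)
      have hw : Pl (ext0 w) ∈ (W.map ext0).map Pl := by
        rw [h]
        exact (hmap (b k) _).1 fun i hi => dif_neg (by simpa using hi)
      obtain ⟨_, ⟨w', hw', rfl⟩, he⟩ := hw
      exact hei (hPinj he) ▸ hw'
  obtain ⟨Y, hY, hYe⟩ : ψ (Matrix.single ⟨k, rfl⟩ ⟨l, hkl.symm⟩ 1) ∈ A := hA ▸ Algebra.mem_top
  rw [(Matrix.toLinAlgEquiv' (R := ℂ) (n := {i // b i = b k})).injective hYe] at hY
  have hY' : Matrix.single ⟨k, rfl⟩ ⟨l, hkl.symm⟩ 1 ∈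
      Subalgebra.toSubmodule (Algebra.adjoin ℂ (Set.range φ)) := hY
  rw [Algebra.adjoin_eq_span] at hY'
  have hcl : (Submonoid.closure (Set.range φ) : Set (Matrix _ _ ℂ)) = Set.range φ := by
    rw [← MonoidHom.coe_mrange, Submonoid.closure_eq]
  rw [hcl] at hY'
  let sub : Matrix (Fin r) (Fin r) ℂ →ₗ[ℂ] Matrix {i // b i = b k} {i // b i = b k} ℂ :=
    { toFun := fun M => M.submatrix Subtype.val Subtype.val
      map_add' := fun _ _ => rfl
      map_smul' := fun _ _ => rfl }
  have himg : Set.range φ = sub '' (Set.range fun g => (ρ' g : Matrix (Fin r) (Fin r) ℂ)) :=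
    Set.range_comp sub fun g => (ρ' g : Matrix (Fin r) (Fin r) ℂ)
  rw [himg, span_image] at hY'
  obtain ⟨X, hX, hXe⟩ := hY'
  refine ⟨X, hX, fun k' l' hk' hl' => ?_⟩
  have := congrFun (congrFun hXe ⟨k', hk'⟩) ⟨l', hl'⟩
  refine this.trans ?_
  rw [Matrix.single_apply]
  exact if_congr (by simp [Subtype.ext_iff, eq_comm]) rfl rfl

end Decomp

end Vale.Agent.P002.Free
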