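import Vale.Agent.P002.Laurent
import Vale.Agent.P002.Free.Blocks

/-!
# P002: integral points are dense in the block diagonal part of a power of SL
-/

namespace Vale.Agent.P002.Free

open Matrix

variable {r : ℕ}

/-- The transvection as an element of SL. -/
def tv {k l : Fin r} (h : k ≠ l) (c : ℂ) : Matrix.SpecialLinearGroup (Fin r) ℂ :=
  ⟨Matrix.transvection k l c, Matrix.det_transvection_of_ne k l h c⟩

theorem det_pair {k l : Fin r} (h : k ≠ l) (t : ℂˣ) :
    (Matrix.diagonal (Function.update (Function.update (1 : Fin r → ℂ) k t) l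
      ((t⁻¹ : ℂˣ) : ℂ))).det = 1 := by
  rw [Matrix.det_diagonal, ← Finset.mul_prod_erase _ _ (Finset.mem_univ l),
    ← Finset.mul_prod_erase (Finset.univ.erase l) _
      (Finset.mem_erase.2 ⟨h, Finset.mem_univ k⟩), Finset.prod_eq_one]
  · simp [Function.update_of_ne h]
  · intro i hi
    simp only [Finset.mem_erase] at hi
    rw [Function.update_of_ne hi.2.1, Function.update_of_ne hi.1]
    rfl

/-- The diagonal element with t and its inverse at two places. -/
noncomputable def pd {k l : Fin r} (h : k ≠ l) (t : ℂˣ) : Matrix.SpecialLinearGroup (Fin r) ℂ :=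
  ⟨_, det_pair h t⟩

theorem bd_mul {b : Fin r → Fin r} {M N : Matrix (Fin r) (Fin r) ℂ} (hM : BD b M) (hN : BD b N) :
    BD b (M * N) := by
  intro k l h
  rw [Matrix.mul_apply]
  refine Finset.sum_eq_zero fun i _ => ?_
  by_cases e : b k = b i
  · rw [hN i l (e ▸ h), mul_zero]
  · rw [hM k i e, zero_mul]

theorem bd_one (b : Fin r → Fin r) : BD b (1 : Matrix (Fin r) (Fin r) ℂ) :=
  fun k l h => Matrix.one_apply_ne fun e => h (e ▸ rfl)

/-- A block placed into the identity matrix. -/
def emb (b : Fin r → Fin r) (j : Fin r) (A : Matrix {k // b k = j} {k // b k = j} ℂ) :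
    Matrix (Fin r) (Fin r) ℂ :=
  fun k l => if h : b k = j ∧ b l = j then A ⟨k, h.1⟩ ⟨l, h.2⟩ else if k = l then 1 else 0

theorem emb_mul (b : Fin r → Fin r) (j : Fin r) (A B : Matrix {k // b k = j} {k // b k = j} ℂ) :
    emb b j (A * B) = emb b j A * emb b j B := by
  ext k l
  rw [Matrix.mul_apply]
  by_cases hk : b k = j
  · by_cases hl : b l = j
    · rw [emb, dif_pos ⟨hk, hl⟩, Matrix.mul_apply]
      refine Eq.trans ?_ (Finset.sum_filter_of_ne (p := fun i => b i = j) fun i _ hi => by
        by_contra h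
        refine hi ?_
        have : k ≠ i := fun e => h (e ▸ hk)
        simp [emb, h, this])
      rw [Finset.sum_subtype (Finset.univ.filter fun i => b i = j) (p := fun i => b i = j)
        (by simp)]
      exact Finset.sum_congr rfl fun i _ => by simp [emb, hk, hl, i.2]
    · have hne : k ≠ l := fun e => hl (e ▸ hk)
      rw [emb, dif_neg (fun h => hl h.2), if_neg hne, Finset.sum_eq_single l]
      · simp [emb, hl, hne]
      · intro i _ hi
        simp [emb, hl, hi]
      · simp
  · rw [emb, dif_neg (fun h => hk h.1), Finset.sum_eq_single k]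
    · simp [emb, hk]
    · intro i _ hi
      simp [emb, hk, Ne.symm hi]
    · simp

/-- Block diagonal elements of SL are generated by transvections inside the blocks and by the
elementary diagonal elements. -/
theorem bd_generate (b : Fin r → Fin r) (K : Matrix.SpecialLinearGroup (Fin r) ℂ → Prop)
    (h1 : K 1) (hmul : ∀ x y, K x → K y → K (x * y))
    (htv : ∀ (k l : Fin r) (h : k ≠ l), b k = b l → ∀ c, K (tv h c))
    (hpd : ∀ (k l : Fin r) (h : k ≠ l) (t : ℂˣ), K (pd h t))
    (g : Matrix.SpecialLinearGroup (Fin r) ℂ) (hg : BD b (g : Matrix (Fin r) (Fin r) ℂ)) :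
    K g := by
  classical
  let N : Submonoid (Matrix.SpecialLinearGroup (Fin r) ℂ) :=
    Submonoid.closure {x | ∃ (k l : Fin r) (h : k ≠ l) (c : ℂ), b k = b l ∧ x = tv h c}
  have hN : ∀ x ∈ N, K x := fun x hx => by
    induction hx using Submonoid.closure_induction with
    | mem x hx => obtain ⟨k, l, h, c, hb, rfl⟩ := hx; exact htv k l h hb c
    | one => exact h1
    | mul x y _ _ hx hy => exact hmul x y hx hy
  -- diagonal times transvections
  let G0 : Matrix (Fin r) (Fin r) ℂ → Prop := fun M => ∃ (d : Fin r → ℂˣ), ∃ n ∈ N,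
    M = Matrix.diagonal (fun k => (d k : ℂ)) * (n : Matrix (Fin r) (Fin r) ℂ)
  have hconj : ∀ (d : Fin r → ℂˣ), ∀ n ∈ N, ∃ n' ∈ N,
      (n : Matrix (Fin r) (Fin r) ℂ) * Matrix.diagonal (fun k => (d k : ℂ)) =
        Matrix.diagonal (fun k => (d k : ℂ)) * (n' : Matrix (Fin r) (Fin r) ℂ) := by
    intro d n hn
    induction hn using Submonoid.closure_induction with
    | mem x hx =>
      obtain ⟨k, l, h, c, hb, rfl⟩ := hx
      refine ⟨tv h (((d k)⁻¹ : ℂˣ) * c * d l),
        Submonoid.subset_closure ⟨k, l, h, _, hb, rfl⟩, ?_⟩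
      ext i j
      simp only [tv, Matrix.mul_diagonal, Matrix.diagonal_mul, Matrix.transvection,
        Matrix.add_apply, Matrix.one_apply, Matrix.single_apply]
      have hd : (d k : ℂ) * ((d k)⁻¹ : ℂˣ) = 1 := by simp
      split_ifs with h1 h2 h2
      · exact absurd (h2.1.trans (h1.trans h2.2.symm)) h
      · rw [h1]; ring
      · rw [← h2.1, ← h2.2]
        linear_combination (-(c * (d l : ℂ))) * hd
      · ring
    | one => exact ⟨1, one_mem N, by simp⟩
    | mul x y _ _ hx hy =>
      obtain ⟨x', hx', ex⟩ := hx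
      obtain ⟨y', hy', ey⟩ := hy
      refine ⟨x' * y', mul_mem hx' hy', ?_⟩
      rw [Matrix.SpecialLinearGroup.coe_mul, Matrix.SpecialLinearGroup.coe_mul, mul_assoc, ey,
        ← mul_assoc, ex, mul_assoc]
  have hG0mul : ∀ M M', G0 M → G0 M' → G0 (M * M') := by
    rintro _ _ ⟨d, n, hn, rfl⟩ ⟨d', n', hn', rfl⟩
    obtain ⟨n₁, hn₁, e⟩ := hconj d' n hn
    refine ⟨d * d', n₁ * n', mul_mem hn₁ hn', ?_⟩
    rw [Matrix.SpecialLinearGroup.coe_mul, mul_assoc, ← mul_assoc (n : Matrix (Fin r) (Fin r) ℂ), e,
      ← mul_assoc, ← mul_assoc, Matrix.diagonal_mul_diagonal, mul_assoc]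
    rfl
  have hG01 : G0 1 := ⟨1, 1, one_mem N, by simp⟩
  have hemb : ∀ j (A : Matrix {k // b k = j} {k // b k = j} ℂ), A.det ≠ 0 → G0 (emb b j A) := by
    intro j A hA
    refine Matrix.diagonal_transvection_induction_of_det_ne_zero (fun A => G0 (emb b j A)) A hA
      (fun D hD => ?_) (fun t => ?_) (fun A B _ _ hA hB => by
        rw [emb_mul]
        exact hG0mul _ _ hA hB)
    · rw [Matrix.det_diagonal, Finset.prod_ne_zero_iff] at hD
      refine ⟨fun k => if h : b k = j then Units.mk0 (D ⟨k, h⟩) (hD _ (Finset.mem_univ _)) else 1,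
        1, one_mem N, ?_⟩
      ext k l
      simp only [Matrix.SpecialLinearGroup.coe_one, mul_one, emb, Matrix.diagonal_apply]
      by_cases hkl : k = l
      · subst hkl
        by_cases h : b k = j <;> simp [h]
      · simp [hkl]
    · refine ⟨1, tv (fun e => t.hij (Subtype.ext e)) t.c,
        Submonoid.subset_closure ⟨t.i.1, t.j.1, _, t.c, t.i.2.trans t.j.2.symm, rfl⟩, ?_⟩
      ext k l
      simp only [Pi.one_apply, Units.val_one, Matrix.diagonal_one, one_mul, tv,
        Matrix.TransvectionStruct.toMatrix, emb, Matrix.transvection, Matrix.add_apply,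
        Matrix.one_apply, Matrix.single_apply, Subtype.ext_iff]
      by_cases h : b k = j ∧ b l = j
      · rw [dif_pos h]
      · rw [dif_neg h]
        have : ¬ ((t.i : Fin r) = k ∧ (t.j : Fin r) = l) := fun e =>
          h ⟨e.1 ▸ t.i.2, e.2 ▸ t.j.2⟩
        simp [this]
  let part : Finset (Fin r) → Matrix (Fin r) (Fin r) ℂ := fun s k l =>
    if b k ∈ s then (g : Matrix (Fin r) (Fin r) ℂ) k l else if k = l then 1 else 0
  have hpart : ∀ s, G0 (part s) := by
    intro s
    induction s using Finset.induction_on with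
    | empty =>
      convert hG01 using 1
      ext k l
      simp [part, Matrix.one_apply]
    | @insert j s hj ih =>
      let A : Matrix {k // b k = j} {k // b k = j} ℂ :=
        (g : Matrix (Fin r) (Fin r) ℂ).submatrix Subtype.val Subtype.val
      have hA : A.det ≠ 0 := by
        let B : Matrix {k // b k = j} {k // b k = j} ℂ :=
          ((g⁻¹ : Matrix.SpecialLinearGroup (Fin r) ℂ) :
            Matrix (Fin r) (Fin r) ℂ).submatrix Subtype.val Subtype.val
        have hAB : A * B = 1 := by
          ext x y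
          have h : (g * g⁻¹ : Matrix.SpecialLinearGroup (Fin r) ℂ) = 1 := mul_inv_cancel g
          have h' := congrFun (congrFun (congrArg
            (fun z : Matrix.SpecialLinearGroup (Fin r) ℂ => (z : Matrix (Fin r) (Fin r) ℂ)) h) x) y
          rw [Matrix.SpecialLinearGroup.coe_mul, Matrix.mul_apply] at h'
          rw [Matrix.mul_apply]
          simp only [A, B, Matrix.submatrix_apply]
          rw [← Finset.sum_subtype (Finset.univ.filter fun i => b i = j) (by simp)
            (fun i => (g : Matrix (Fin r) (Fin r) ℂ) x i *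
              ((g⁻¹ : Matrix.SpecialLinearGroup (Fin r) ℂ) : Matrix (Fin r) (Fin r) ℂ) i y),
            Finset.sum_filter_of_ne, h', Matrix.SpecialLinearGroup.coe_one]
          · simp [Matrix.one_apply, Subtype.ext_iff]
          · intro i _ hi
            by_contra h
            exact hi (by rw [hg x i (fun e => h (e ▸ x.2)), zero_mul])
        intro h0
        have := congrArg Matrix.det hAB
        simp [h0] at this
      convert hG0mul _ _ (hemb j A hA) ih using 1
      ext k l
      rw [Matrix.mul_apply]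
      by_cases hk : b k = j
      · rw [Finset.sum_eq_single l]
        · have hks : b k ∈ insert j s := hk ▸ Finset.mem_insert_self _ _
          by_cases hl : b l = j
          · simp [part, emb, hk, hl, hj, A]
          · have hne : k ≠ l := fun e => hl (e ▸ hk)
            simp [part, emb, hk, hl, hne, hg k l (fun e => hl (e ▸ hk))]
        · intro i _ hi
          by_cases hi' : b i = j
          · simp [part, hi', hj, hi]
          · have : k ≠ i := fun e => hi' (e ▸ hk)
            simp [emb, hi', this]
        · simp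
      · rw [Finset.sum_eq_single k]
        · simp [part, emb, hk]
        · intro i _ hi
          simp [emb, hk, Ne.symm hi]
        · simp
  obtain ⟨d, n, hn, hdn⟩ : G0 (g : Matrix (Fin r) (Fin r) ℂ) := by
    convert hpart Finset.univ using 1
    ext k l
    simp [part]
  have hd1 : ∏ k, d k = 1 := Units.ext (by
    have := congrArg Matrix.det hdn
    simpa [Matrix.det_mul, Matrix.det_diagonal, Units.coe_prod] using this.symm)
  -- the diagonal part
  let mk : (d : Fin r → ℂˣ) → (∏ k, d k = 1) → Matrix.SpecialLinearGroup (Fin r) ℂ := fun d h =>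
    ⟨Matrix.diagonal (fun k => (d k : ℂ)), by rw [Matrix.det_diagonal, ← Units.coe_prod, h]; rfl⟩
  have hdiag : ∀ (s : Finset (Fin r)) (d : Fin r → ℂˣ) (h : ∏ k, d k = 1),
      (∀ k ∉ s, d k = 1) → K (mk d h) := by
    intro s
    induction s using Finset.induction_on with
    | empty =>
      intro d h hd
      convert h1
      refine Subtype.ext ?_
      simp [mk, fun k => hd k (Finset.notMem_empty k)]
    | @insert k s hk ih =>
      intro d h hd
      by_cases hdk : d k = 1
      · exact ih d h fun i hi => if e : i = k then e ▸ hdk else hd i (by simp [e, hi])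
      obtain ⟨l, hl, hls⟩ : ∃ l, l ≠ k ∧ l ∈ s := by
        by_contra hno
        push Not at hno
        refine hdk ?_
        rw [← h, Finset.prod_eq_single k (fun i _ hi => hd i (by simp [hi, hno i hi])) (by simp)]
      let d' : Fin r → ℂˣ := Function.update (Function.update d k 1) l (d l * d k)
      have h' : ∏ i, d' i = 1 := by
        rw [← h, ← Finset.mul_prod_erase _ _ (Finset.mem_univ l),
          ← Finset.mul_prod_erase _ d (Finset.mem_univ l),
          ← Finset.mul_prod_erase (Finset.univ.erase l) _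
            (Finset.mem_erase.2 ⟨Ne.symm hl, Finset.mem_univ k⟩),
          ← Finset.mul_prod_erase (Finset.univ.erase l) d
            (Finset.mem_erase.2 ⟨Ne.symm hl, Finset.mem_univ k⟩)]
        rw [Finset.prod_congr (g := d) rfl fun i hi => ?_]
        · simp [d', Function.update_of_ne (Ne.symm hl), mul_assoc]
        · simp only [Finset.mem_erase] at hi
          simp [d', Function.update_of_ne hi.2.1, Function.update_of_ne hi.1]
      have hd' : ∀ i ∉ s, d' i = 1 := fun i hi => by
        have hil : i ≠ l := fun e => hi (e ▸ hls)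
        by_cases e : i = k
        · subst e; simp [d', Function.update_of_ne hil]
        · simp [d', Function.update_of_ne hil, Function.update_of_ne e, hd i (by simp [e, hi])]
      have e : mk d h = pd (Ne.symm hl) (d k) * mk d' h' := by
        refine Subtype.ext ?_
        show Matrix.diagonal _ = Matrix.diagonal _ * Matrix.diagonal _
        rw [Matrix.diagonal_mul_diagonal]
        congr 1
        funext i
        by_cases e1 : i = l
        · subst e1
          simp [d', mul_comm (d i : ℂ)]
        by_cases e2 : i = k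
        · subst e2
          simp [d', Function.update_of_ne e1]
        · simp [d', Function.update_of_ne e1, Function.update_of_ne e2]
      rw [e]
      exact hmul _ _ (hpd _ _ _ _) (ih d' h' hd')
  have hfin : g = mk d hd1 * n := Subtype.ext hdn
  rw [hfin]
  exact hmul _ _ (hdiag Finset.univ d hd1 fun k hk => absurd (Finset.mem_univ k) hk) (hN n hn)

variable {ι : Type}

/-- The algebra of polynomial functions on tuples. -/
def Pol (ι : Type) (r : ℕ) : Subalgebra ℂ ((ι → Matrix.SpecialLinearGroup (Fin r) ℂ) → ℂ) :=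
  Algebra.adjoin ℂ (Set.range fun t : ι × Fin r × Fin r =>
    fun h : ι → Matrix.SpecialLinearGroup (Fin r) ℂ => (h t.1 : Matrix (Fin r) (Fin r) ℂ) t.2.1 t.2.2)

theorem coord_mem_pol (i : ι) (k l : Fin r) :
    (fun h : ι → Matrix.SpecialLinearGroup (Fin r) ℂ => (h i : Matrix (Fin r) (Fin r) ℂ) k l) ∈
      Pol ι r :=
  Algebra.subset_adjoin ⟨(i, k, l), rfl⟩

theorem pol_translate (a : ι → Matrix.SpecialLinearGroup (Fin r) ℂ) :
    ∀ f ∈ Pol ι r, (fun h => f (a * h)) ∈ Pol ι r ∧ (fun h => f (h * a)) ∈ Pol ι r := by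
  intro f hf
  induction hf using Algebra.adjoin_induction with
  | mem f hf =>
    obtain ⟨⟨i, k, l⟩, rfl⟩ := hf
    constructor
    · have : (fun h : ι → Matrix.SpecialLinearGroup (Fin r) ℂ =>
          ((a * h) i : Matrix (Fin r) (Fin r) ℂ) k l) = ∑ x, (a i : Matrix (Fin r) (Fin r) ℂ) k x •
            fun h : ι → Matrix.SpecialLinearGroup (Fin r) ℂ =>
              (h i : Matrix (Fin r) (Fin r) ℂ) x l := by
        funext h; simp [Matrix.mul_apply]
      rw [this]
      exact sum_mem fun x _ => Subalgebra.smul_mem _ (coord_mem_pol i x l) _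
    · have : (fun h : ι → Matrix.SpecialLinearGroup (Fin r) ℂ =>
          ((h * a) i : Matrix (Fin r) (Fin r) ℂ) k l) = ∑ x, (a i : Matrix (Fin r) (Fin r) ℂ) x l •
            fun h : ι → Matrix.SpecialLinearGroup (Fin r) ℂ =>
              (h i : Matrix (Fin r) (Fin r) ℂ) k x := by
        funext h; simp [Matrix.mul_apply, mul_comm]
      rw [this]
      exact sum_mem fun x _ => Subalgebra.smul_mem _ (coord_mem_pol i k x) _
  | algebraMap c => exact ⟨Subalgebra.algebraMap_mem _ c, Subalgebra.algebraMap_mem _ c⟩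
  | add f g _ _ hf hg => exact ⟨add_mem hf.1 hg.1, add_mem hf.2 hg.2⟩
  | mul f g _ _ hf hg => exact ⟨mul_mem hf.1 hg.1, mul_mem hf.2 hg.2⟩

/-- Polynomial functions vanishing at integral block diagonal tuples vanish at all of them. -/
theorem vanish [Finite ι] (b : Fin r → Fin r) (R : Subring ℂ) (α : ℂˣ) (hα : (α : ℂ) ∈ R)
    (hα' : ((α⁻¹ : ℂˣ) : ℂ) ∈ R) (hinj : Function.Injective fun n : ℕ => α ^ n)
    (f : (ι → Matrix.SpecialLinearGroup (Fin r) ℂ) → ℂ) (hf : f ∈ Pol ι r)
    (h0 : ∀ h : ι → Matrix.SpecialLinearGroup (Fin r) ℂ,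
      (∀ i, BD b (h i : Matrix (Fin r) (Fin r) ℂ) ∧
        ∀ k l, (h i : Matrix (Fin r) (Fin r) ℂ) k l ∈ R) → f h = 0) :
    ∀ h : ι → Matrix.SpecialLinearGroup (Fin r) ℂ,
      (∀ i, BD b (h i : Matrix (Fin r) (Fin r) ℂ)) → f h = 0 := by
  classical
  let TT := ι → Matrix.SpecialLinearGroup (Fin r) ℂ
  let 𝒢 : Set TT := {h | ∀ i, BD b (h i : Matrix (Fin r) (Fin r) ℂ) ∧
        ∀ k l, (h i : Matrix (Fin r) (Fin r) ℂ) k l ∈ R}
  let S : Set TT := {h | ∀ f ∈ Pol ι r, (∀ g ∈ 𝒢, f g = 0) → f h = 0}
  have hsub : 𝒢 ⊆ S := fun h hh f _ h0 => h0 h hh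
  have h𝒢 : ∀ x ∈ 𝒢, ∀ y ∈ 𝒢, x * y ∈ 𝒢 := fun x hx y hy i => by
    refine ⟨?_, fun k l => ?_⟩
    · rw [Pi.mul_apply, Matrix.SpecialLinearGroup.coe_mul]
      exact bd_mul (hx i).1 (hy i).1
    · rw [Pi.mul_apply, Matrix.SpecialLinearGroup.coe_mul, Matrix.mul_apply]
      exact sum_mem fun z _ => mul_mem ((hx i).2 _ _) ((hy i).2 _ _)
  have hmul : ∀ a ∈ S, ∀ s ∈ S, a * s ∈ S := fun a ha s hs f hf hfg => by
    refine ha (fun h => f (h * s)) (pol_translate s f hf).2 fun g hg => ?_
    exact hs (fun h => f (g * h)) (pol_translate g f hf).1 fun g' hg' => hfg _ (h𝒢 g hg g' hg')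
  have hone : (1 : TT) ∈ 𝒢 := fun i => ⟨bd_one b, fun k l => by
    rw [Pi.one_apply, Matrix.SpecialLinearGroup.coe_one, Matrix.one_apply]
    split_ifs <;> simp⟩
  have hpar : ∀ c : ℂˣ → TT,
      (∀ i k l, Lau fun t => (c t i : Matrix (Fin r) (Fin r) ℂ) k l) →
      (∀ n : ℕ, c (α ^ n) ∈ 𝒢) → ∀ t, c t ∈ S := by
    intro c hc hn t f hf hfg
    have hP : ∀ f ∈ Pol ι r, Lau fun t => f (c t) := by
      intro f hf
      induction hf using Algebra.adjoin_induction with
      | mem f hf => obtain ⟨⟨i, k, l⟩, rfl⟩ := hf; exact hc i k l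
      | algebraMap z => exact lau_const z
      | add f g _ _ hf hg => exact Lau.add hf hg
      | mul f g _ _ hf hg => exact Lau.mul hf hg
    exact (hP f hf).eq_zero hinj (fun n => hfg _ (hn n)) t
  have hpow : ∀ n : ℕ, ((α ^ n : ℂˣ) : ℂ) ∈ R ∧ (((α ^ n)⁻¹ : ℂˣ) : ℂ) ∈ R := fun n => by
    refine ⟨by rw [Units.val_pow_eq_pow_val]; exact pow_mem hα n, ?_⟩
    rw [← inv_pow, Units.val_pow_eq_pow_val]; exact pow_mem hα' n
  have hsingle : ∀ (i : ι) (g : Matrix.SpecialLinearGroup (Fin r) ℂ),
      BD b (g : Matrix (Fin r) (Fin r) ℂ) → Pi.mulSingle i g ∈ S := by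
    intro i g hg
    have hat : ∀ (u : ℂˣ → Matrix.SpecialLinearGroup (Fin r) ℂ),
        (∀ k l, Lau fun t => (u t : Matrix (Fin r) (Fin r) ℂ) k l) →
        (∀ n : ℕ, BD b (u (α ^ n) : Matrix (Fin r) (Fin r) ℂ) ∧
          ∀ k l, (u (α ^ n) : Matrix (Fin r) (Fin r) ℂ) k l ∈ R) →
        ∀ t, Pi.mulSingle i (u t) ∈ S := by
      intro u hu hn
      refine hpar (fun t => Pi.mulSingle i (u t)) (fun j k l => ?_) fun n j => ?_
      · rcases eq_or_ne j i with rfl | hj
        · simpa using hu k l
        · simpa [hj] using lau_const ((1 : Matrix (Fin r) (Fin r) ℂ) k l)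
      · rcases eq_or_ne j i with rfl | hj
        · simpa using hn n
        · simp only [Pi.mulSingle_eq_of_ne hj]
          exact hone j
    refine bd_generate b (fun g => Pi.mulSingle i g ∈ S) (by simpa using hsub hone)
      (fun x y hx hy => by rw [Pi.mulSingle_mul]; exact hmul _ hx _ hy) ?_ ?_ g hg
    · intro k l h hb c
      by_cases hc : c = 0
      · subst hc
        have : tv h 0 = 1 := Subtype.ext (by simp [tv])
        simpa [this] using hsub hone
      refine hat (fun t => tv h (t : ℂ)) (fun k' l' => ?_) (fun n => ⟨?_, fun k' l' => ?_⟩)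
        (Units.mk0 c hc)
      · have : (fun t : ℂˣ => (tv h (t : ℂ) : Matrix (Fin r) (Fin r) ℂ) k' l') = fun t =>
            (1 : Matrix (Fin r) (Fin r) ℂ) k' l' +
              (if k = k' ∧ l = l' then 1 else 0) * ((t ^ (1 : ℤ) : ℂˣ) : ℂ) := by
          funext t
          simp [tv, Matrix.transvection, Matrix.single_apply]
        rw [this]
        exact (lau_const _).add (lau_mono _ _)
      · intro k' l' hne
        have h1 : k' ≠ l' := fun e => hne (e ▸ rfl)
        have h2 : ¬ (k = k' ∧ l = l') := fun e => hne (by rw [← e.1, ← e.2, hb])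
        simp [tv, Matrix.transvection, h1, Matrix.single_apply, h2]
      · simp only [tv, Matrix.transvection, Matrix.add_apply, Matrix.one_apply, Matrix.single_apply]
        have := (hpow n).1
        split_ifs <;>
          first
          | exact add_mem (one_mem R) this
          | exact add_mem (zero_mem R) this
          | exact add_mem (one_mem R) (zero_mem R)
          | exact add_mem (zero_mem R) (zero_mem R)
    · intro k l h t
      refine hat (fun t => pd h t) (fun k' l' => ?_) (fun n => ⟨?_, fun k' l' => ?_⟩) t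
      · by_cases e : k' = l'
        · subst e
          by_cases e1 : k' = l
          · subst e1
            simpa [pd] using lau_mono 1 (-1)
          by_cases e2 : k' = k
          · subst e2
            simpa [pd, e1] using lau_mono 1 1
          · simpa [pd, e1, e2] using lau_const 1
        · simpa [pd, e] using lau_const 0
      · intro k' l' hne
        exact Matrix.diagonal_apply_ne _ fun e => hne (e ▸ rfl)
      · simp only [pd, Matrix.diagonal_apply]
        by_cases e : k' = l'
        · rw [if_pos e]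
          by_cases e1 : k' = l
          · subst e1; simpa using (hpow n).2
          by_cases e2 : k' = k
          · subst e2; simpa [e1] using (hpow n).1
          · simp [Function.update_of_ne e1, Function.update_of_ne e2]
        · rw [if_neg e]; exact zero_mem R
  intro h hh
  have := Fintype.ofFinite ι
  suffices hs : ∀ s : Finset ι, (fun i => if i ∈ s then h i else 1) ∈ S by
    have := hs Finset.univ f hf h0
    simpa using this
  intro s
  induction s using Finset.induction_on with
  | empty => simpa [← Pi.one_def] using hsub hone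
  | @insert i s hi ih =>
    convert hmul _ (hsingle i (h i) (hh i)) _ ih using 1
    funext j
    change _ = (Pi.mulSingle i (h i) : TT) j * (if j ∈ s then h j else 1)
    rcases eq_or_ne j i with rfl | hj
    · simp [hi]
    · simp [hj]

end Vale.Agent.P002.Free
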