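import Mathlib

/-!
# P002: a basis in which a quasi-unipotent map has entries in a given ring of algebraic integers
-/

namespace Vale.Agent.P002.Free

open Module Submodule

/-- A basis adapted to a nilpotent endomorphism: it maps each vector to zero or to another one,
injectively away from the kernel. -/
theorem exists_chain_basis : ∀ (d : ℕ) {V : Type} [AddCommGroup V] [Module ℂ V]
    [FiniteDimensional ℂ V] (N : Module.End ℂ V), finrank ℂ V = d → IsNilpotent N →
    ∃ (ι : Type) (_ : Fintype ι) (b : Basis ι ℂ V),
      (∀ i, N (b i) = 0 ∨ ∃ j, N (b i) = b j) ∧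
      ∀ i k, N (b i) ≠ 0 → N (b i) = N (b k) → i = k := by
  intro d
  induction d using Nat.strong_induction_on with
  | _ d ih =>
    intro V _ _ _ N hd hN
    classical
    rcases subsingleton_or_nontrivial V with hV | hV
    · exact ⟨Fin 0, inferInstance, Basis.empty V, fun i => i.elim0, fun i => i.elim0⟩
    have hne : LinearMap.range N ≠ ⊤ := fun h => by
      obtain ⟨m, hm⟩ := hN
      have hs : Function.Surjective N := LinearMap.range_eq_top.1 h
      have : Function.Surjective ((N ^ m : Module.End ℂ V)) := by
        rw [Module.End.coe_pow]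
        exact hs.iterate m
      rw [hm] at this
      obtain ⟨v, hv⟩ := exists_ne (0 : V)
      obtain ⟨u, hu⟩ := this v
      exact hv (hu.symm.trans rfl)
    let W := LinearMap.range N
    let N' : Module.End ℂ W := N.restrict fun v _ => LinearMap.mem_range_self N v
    have hN' : IsNilpotent N' := Module.End.isNilpotent.restrict _ hN
    obtain ⟨ι, hι, b, hb, hinj⟩ := ih _ (hd ▸ Submodule.finrank_lt hne) N' rfl hN'
    let K := LinearMap.ker N
    let Top := {i : ι // ∀ k, N' (b k) ≠ b i}
    choose u hu using fun t : Top => LinearMap.mem_range.1 (b t.1).2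
    let Z := {i : ι // N' (b i) = 0}
    have hzK : ∀ z : Z, ((b z.1 : W) : V) ∈ K := fun z => congrArg Subtype.val z.2
    let w : Z → K := fun z => ⟨_, hzK z⟩
    obtain ⟨C, hC⟩ := Submodule.exists_isCompl (span ℂ (Set.range w))
    let c := Module.finBasis ℂ C
    let f : (ι ⊕ Top) ⊕ Fin (finrank ℂ C) → V :=
      Sum.elim (Sum.elim (fun i => ((b i : W) : V)) u) fun k => ((c k : C) : K)
    have hNf : ∀ i, N (b i : V) = ((N' (b i) : W) : V) := fun i => rfl
    have hb0 : ∀ i, ((b i : W) : V) ≠ 0 := fun i h => b.ne_zero i (Subtype.ext h)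
    -- linear independence
    have hli : LinearIndependent ℂ f := by
      rw [Fintype.linearIndependent_iff]
      intro g hg
      rw [Fintype.sum_sum_type, Fintype.sum_sum_type] at hg
      have hc0 : ∀ k, N (((c k : C) : K) : V) = 0 := fun k => ((c k : C) : K).2
      have hNg := congrArg N hg
      simp only [map_add, map_sum, map_smul, map_zero, f, Sum.elim_inl, Sum.elim_inr, hu, hc0,
        smul_zero, Finset.sum_const_zero, add_zero] at hNg
      have hW : ∑ i, g (Sum.inl (Sum.inl i)) • N' (b i) +
          ∑ t : Top, g (Sum.inl (Sum.inr t)) • b t.1 = 0 := Subtype.ext (by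
        simpa [hNf] using hNg)
      have hcoef : ∀ j, ∑ i, g (Sum.inl (Sum.inl i)) * b.repr (N' (b i)) j +
          ∑ t : Top, g (Sum.inl (Sum.inr t)) * b.repr (b t.1) j = 0 := fun j => by
        have := congrArg (fun x => b.repr x j) hW
        simp only [map_add, map_sum, map_smul, Finsupp.add_apply, Finsupp.finsetSum_apply,
          Finsupp.smul_apply, smul_eq_mul, map_zero, Finsupp.zero_apply] at this
        exact this
      have hT : ∀ t : Top, g (Sum.inl (Sum.inr t)) = 0 := by
        intro t
        have h := hcoef t.1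
        rw [Finset.sum_eq_zero fun i _ => ?_, zero_add, Finset.sum_eq_single t] at h
        · simpa using h
        · intro t' _ ht
          have : t'.1 ≠ t.1 := fun e => ht (Subtype.ext e)
          simp [this]
        · simp
        · rcases hb i with h | ⟨j, h⟩
          · simp [h]
          · have : j ≠ t.1 := fun e => t.2 i (e ▸ h)
            simp [h, this]
      have hA : ∀ i, N' (b i) ≠ 0 → g (Sum.inl (Sum.inl i)) = 0 := by
        intro i hi
        obtain ⟨j, hj⟩ := (hb i).resolve_left hi
        have h := hcoef j
        rw [Finset.sum_eq_single i, Finset.sum_eq_zero fun t _ => by simp [hT t]] at h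
        · simpa [hj] using h
        · intro k _ hk
          rcases hb k with h' | ⟨l, h'⟩
          · simp [h']
          · have : l ≠ j := fun e => hk (hinj i k hi (by rw [hj, h', e])).symm
            simp [h', this]
        · simp
      have hK : ∑ z : Z, g (Sum.inl (Sum.inl z.1)) • w z +
          ∑ k, g (Sum.inr k) • ((c k : C) : K) = 0 := Subtype.ext (by
        have e : ∑ i, g (Sum.inl (Sum.inl i)) • ((b i : W) : V) =
            ∑ z : Z, g (Sum.inl (Sum.inl z.1)) • ((b z.1 : W) : V) := by
          rw [← Finset.sum_subtype (Finset.univ.filter fun i => N' (b i) = 0) (by simp)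
            (fun i => g (Sum.inl (Sum.inl i)) • ((b i : W) : V)),
            Finset.sum_filter_of_ne]
          intro i _ hi
          by_contra h
          exact hi (by simp [hA i h])
        simp only [f, Sum.elim_inl, Sum.elim_inr, hT, zero_smul, Finset.sum_const_zero,
          add_zero] at hg
        rw [e] at hg
        simpa [w] using hg)
      have h1 : ∑ k, g (Sum.inr k) • c k = 0 := by
        refine Subtype.ext ?_
        have hmem : ∑ k, g (Sum.inr k) • ((c k : C) : K) ∈ span ℂ (Set.range w) := by
          rw [eq_neg_of_add_eq_zero_right hK]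
          exact neg_mem (sum_mem fun z _ => smul_mem _ _ (subset_span ⟨z, rfl⟩))
        simpa using Submodule.disjoint_def.1 hC.disjoint _ hmem
          (sum_mem fun k _ => smul_mem _ _ (c k).2)
      have hck := Fintype.linearIndependent_iff.1 c.linearIndependent _ h1
      have hZ : ∀ z : Z, g (Sum.inl (Sum.inl z.1)) = 0 := by
        simp only [hck, zero_smul, Finset.sum_const_zero, add_zero] at hK
        have hli : LinearIndependent ℂ w :=
          LinearIndependent.of_comp K.subtype ((b.linearIndependent.map' W.subtype
            W.ker_subtype).comp Subtype.val Subtype.val_injective)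
        exact Fintype.linearIndependent_iff.1 hli _ hK
      rintro ((i | t) | k)
      · by_cases h : N' (b i) = 0
        · exact hZ ⟨i, h⟩
        · exact hA i h
      · exact hT t
      · exact hck k
    -- spanning
    have hmem : ∀ k, f k ∈ span ℂ (Set.range f) := fun k => subset_span ⟨k, rfl⟩
    have hKs : ∀ v ∈ K, v ∈ span ℂ (Set.range f) := by
      intro v hv
      obtain ⟨p, hp, q, hq, hpq⟩ := Submodule.mem_sup.1
        ((codisjoint_iff.1 hC.codisjoint).symm ▸ Submodule.mem_top :
          (⟨v, hv⟩ : K) ∈ span ℂ (Set.range w) ⊔ C)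
      rw [show v = (p : V) + q from (congrArg Subtype.val hpq).symm]
      refine add_mem ?_ ?_
      · refine (show span ℂ (Set.range w) ≤ (span ℂ (Set.range f)).comap K.subtype from
          span_le.2 ?_) hp
        rintro _ ⟨z, rfl⟩
        exact hmem (Sum.inl (Sum.inl z.1))
      · have h2 := congrArg (fun x : C => ((x : K) : V)) (c.sum_repr ⟨q, hq⟩)
        simp only [AddSubmonoidClass.coe_finsetSum, SetLike.val_smul] at h2
        rw [← h2]
        exact sum_mem fun k _ => smul_mem _ _ (hmem (Sum.inr k))
    have hspan : ⊤ ≤ span ℂ (Set.range f) := by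
      intro v _
      have hb' : ∀ i, ∃ y ∈ span ℂ (Set.range f), N y = (b i : V) := by
        intro i
        by_cases ht : ∀ k, N' (b k) ≠ b i
        · exact ⟨_, hmem (Sum.inl (Sum.inr ⟨i, ht⟩)), hu _⟩
        · push Not at ht
          obtain ⟨k, hk⟩ := ht
          exact ⟨_, hmem (Sum.inl (Sum.inl k)), by rw [← hk]; rfl⟩
      choose y hy hyN using hb'
      let s := ∑ i, b.repr ⟨N v, LinearMap.mem_range_self N v⟩ i • y i
      have hs : s ∈ span ℂ (Set.range f) := sum_mem fun i _ => smul_mem _ _ (hy i)
      rw [← sub_add_cancel v s]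
      refine add_mem (hKs _ ?_) hs
      rw [LinearMap.mem_ker, map_sub, map_sum, sub_eq_zero]
      have h2 := congrArg Subtype.val (b.sum_repr ⟨N v, LinearMap.mem_range_self N v⟩)
      simp only [AddSubmonoidClass.coe_finsetSum, SetLike.val_smul] at h2
      simp [map_smul, hyN, h2]
    refine ⟨_, inferInstance, Basis.mk hli hspan, fun k => ?_, fun k l => ?_⟩
    · simp only [Basis.mk_apply]
      rcases k with (i | t) | k
      · rcases hb i with h | ⟨j, h⟩
        · exact Or.inl (congrArg Subtype.val h)
        · exact Or.inr ⟨Sum.inl (Sum.inl j), congrArg Subtype.val h⟩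
      · exact Or.inr ⟨Sum.inl (Sum.inl t.1), hu t⟩
      · exact Or.inl (((c k : C) : K)).2
    · simp only [Basis.mk_apply]
      intro h0 he
      rcases k with (i | t) | k
      · have hi : N' (b i) ≠ 0 := fun h => h0 (congrArg Subtype.val h)
        rcases l with (i' | t') | l
        · rw [hinj i i' hi (Subtype.ext he)]
        · exact absurd (Subtype.ext (he.trans (hu t'))) (t'.2 i)
        · exact absurd (he.trans ((c l : C) : K).2) h0
      · rcases l with (i' | t') | l
        · exact absurd (Subtype.ext (he.symm.trans (hu t))) (t.2 i')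
        · simp only [f, Sum.elim_inl, Sum.elim_inr, hu] at he
          rw [Subtype.ext (b.injective (Subtype.ext he))]
        · exact absurd (he.trans ((c l : C) : K).2) h0
      · exact absurd ((c k : C) : K).2 h0

/-- A quasi-unipotent matrix is similar to one with entries in a ring containing the roots of
unity of its exponent. -/
theorem exists_ring_form {n : Type} [Fintype n] [DecidableEq n] (A : Matrix n n ℂ) {M : ℕ}
    (hA : IsNilpotent (A ^ M - 1)) (R : Subring ℂ) (hR : ∀ z : ℂ, z ^ M = 1 → z ∈ R) :
    ∃ P J : Matrix n n ℂ, P.det ≠ 0 ∧ A * P = P * J ∧ ∀ i j, J i j ∈ R := by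
  classical
  let f : Module.End ℂ (n → ℂ) := Matrix.toLinAlgEquiv' A
  have hf : IsNilpotent (f ^ M - 1) := by
    have := hA.map (Matrix.toLinAlgEquiv' (R := ℂ) (n := n))
    simpa [f] using this
  have hint : DirectSum.IsInternal fun μ => f.maxGenEigenspace μ :=
    (DirectSum.isInternal_submodule_iff_iSupIndep_and_iSup_eq_top _).2
      ⟨f.independent_maxGenEigenspace, f.iSup_maxGenEigenspace_eq_top⟩
  have hblock : ∀ μ, ∃ (ι : Type) (_ : Fintype ι) (b : Basis ι ℂ (f.maxGenEigenspace μ)),
      ∀ i k, b.repr (f.restrict (Module.End.mapsTo_maxGenEigenspace_of_comm (Commute.refl f) μ)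
        (b i)) k ∈ R := by
    intro μ
    have hstab : ∀ v ∈ f.maxGenEigenspace μ, (f - algebraMap ℂ _ μ) v ∈ f.maxGenEigenspace μ :=
      Module.End.mapsTo_maxGenEigenspace_of_comm
        ((Commute.refl f).sub_right (Algebra.commute_algebraMap_right μ f)) μ
    obtain ⟨ι, hι, b, hb, -⟩ := exists_chain_basis _ ((f - algebraMap ℂ _ μ).restrict hstab) rfl
      (Module.End.isNilpotent_restrict_maxGenEigenspace_sub_algebraMap f μ)
    refine ⟨ι, hι, b, fun i k => ?_⟩
    have hμ : μ ∈ R := by
      refine hR μ ?_
      have hv : f.HasEigenvalue μ := by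
        refine Module.End.HasUnifEigenvalue.lt (k := ⊤) (by simp) ?_
        exact fun h => b.ne_zero i (Subtype.ext ((Submodule.mem_bot ℂ).1 (h ▸ (b i).2)))
      obtain ⟨v, hv⟩ := hv.exists_hasEigenvector
      obtain ⟨m, hm⟩ := hf
      have h1 : ∀ m : ℕ, ((f ^ M - 1) ^ m) v = (μ ^ M - 1) ^ m • v := by
        intro m
        induction m with
        | zero => simp
        | succ m ih =>
          rw [pow_succ', Module.End.mul_apply, ih, map_smul, LinearMap.sub_apply, hv.pow_apply,
            Module.End.one_apply, pow_succ, mul_smul, sub_smul, one_smul]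
      have h2 := h1 m
      rw [hm] at h2
      exact sub_eq_zero.1 (pow_eq_zero_iff' |>.1 ((smul_eq_zero.1 h2.symm).resolve_right hv.2)).1
    have e : f.restrict (Module.End.mapsTo_maxGenEigenspace_of_comm (Commute.refl f) μ) (b i) =
        μ • b i + (f - algebraMap ℂ _ μ).restrict hstab (b i) := Subtype.ext (by
      simp [Module.algebraMap_end_apply]
      rfl)
    rw [e, map_add, map_smul, Finsupp.add_apply, Finsupp.smul_apply, b.repr_self]
    refine add_mem ?_ ?_
    · rw [Finsupp.single_apply]
      split_ifs <;> simp [hμ]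
    · rcases hb i with h | ⟨j, h⟩
      · simp [h]
      · rw [h, b.repr_self, Finsupp.single_apply]
        split_ifs <;> simp
  choose ι hι b hb using hblock
  let B := hint.collectedBasis b
  have : Fintype (Σ μ, ι μ) := @Fintype.ofFinite _ (Module.Finite.finite_basis B)
  have hcard : Fintype.card (Σ μ, ι μ) = Fintype.card n := by
    rw [← Module.finrank_eq_card_basis B, Module.finrank_fintype_fun_eq_card]
  let C := B.reindex (Fintype.equivOfCardEq hcard)
  refine ⟨(Pi.basisFun ℂ n).toMatrix C, LinearMap.toMatrix C C f, ?_, ?_, fun i j => ?_⟩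
  · have := (Pi.basisFun ℂ n).invertibleToMatrix C
    exact (Matrix.isUnit_det_of_invertible _).ne_zero
  · have hA' : A = LinearMap.toMatrix (Pi.basisFun ℂ n) (Pi.basisFun ℂ n) f := by
      ext i j
      simp [f, LinearMap.toMatrix_apply]
    conv_lhs => rw [hA']
    rw [linearMap_toMatrix_mul_basis_toMatrix, basis_toMatrix_mul_linearMap_toMatrix]
  · rw [LinearMap.toMatrix_apply]
    simp only [C, Basis.reindex_apply, Basis.repr_reindex, Finsupp.mapDomain_equiv_apply]
    obtain ⟨ν, k⟩ := (Fintype.equivOfCardEq hcard).symm j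
    obtain ⟨μ, l⟩ := (Fintype.equivOfCardEq hcard).symm i
    rw [hint.collectedBasis_coe]
    have hmem : f (b ν k : n → ℂ) ∈ f.maxGenEigenspace ν :=
      Module.End.mapsTo_maxGenEigenspace_of_comm (Commute.refl f) ν (b ν k).2
    rcases eq_or_ne ν μ with rfl | hne
    · rw [hint.collectedBasis_repr_of_mem b hmem]
      exact hb ν k l
    · rw [hint.collectedBasis_repr_of_mem_ne b hne hmem]
      exact zero_mem _

end Vale.Agent.P002.Free
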