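import Vale.Agent.P002.Alpha
import Vale.Agent.P002.Free.Closure
import Vale.Agent.P002.Free.NormalForm

/-!
# P002: integral points for free groups with classes prescribed on members of a basis
-/

namespace Vale.Agent.P002.Free

open Matrix

variable {r : ℕ}

/-- Block diagonality means commuting with one diagonal matrix. -/
theorem bd_iff_commute (b : Fin r → Fin r) (M : Matrix (Fin r) (Fin r) ℂ) :
    BD b M ↔ Commute M (Matrix.diagonal fun k => ((b k : ℕ) : ℂ)) := by
  constructor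
  · intro h
    ext k l
    rw [Matrix.mul_diagonal, Matrix.diagonal_mul]
    by_cases e : b k = b l
    · rw [e, mul_comm]
    · rw [h k l e]; ring
  · intro h k l e
    have := congrFun (congrFun h.eq k) l
    rw [Matrix.mul_diagonal, Matrix.diagonal_mul, mul_comm] at this
    by_contra h0
    exact e (Fin.ext (by exact_mod_cast (mul_right_cancel₀ h0 this).symm))

theorem bd_inv {b : Fin r → Fin r} {g : Matrix.SpecialLinearGroup (Fin r) ℂ}
    (h : BD b (g : Matrix (Fin r) (Fin r) ℂ)) :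
    BD b ((g⁻¹ : Matrix.SpecialLinearGroup (Fin r) ℂ) : Matrix (Fin r) (Fin r) ℂ) := by
  rw [bd_iff_commute] at h ⊢
  let u : (Matrix (Fin r) (Fin r) ℂ)ˣ := ⟨g, (g⁻¹ : Matrix.SpecialLinearGroup (Fin r) ℂ),
    by rw [← Matrix.SpecialLinearGroup.coe_mul, mul_inv_cancel]; rfl,
    by rw [← Matrix.SpecialLinearGroup.coe_mul, inv_mul_cancel]; rfl⟩
  exact Commute.units_inv_left (a := _) (u := u) h

theorem entries_inv {R : Subring ℂ} {g : Matrix.SpecialLinearGroup (Fin r) ℂ}
    (h : ∀ k l, (g : Matrix (Fin r) (Fin r) ℂ) k l ∈ R) (k l : Fin r) :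
    ((g⁻¹ : Matrix.SpecialLinearGroup (Fin r) ℂ) : Matrix (Fin r) (Fin r) ℂ) k l ∈ R := by
  let A : Matrix (Fin r) (Fin r) R := Matrix.of fun i j => ⟨_, h i j⟩
  have e : ((g⁻¹ : Matrix.SpecialLinearGroup (Fin r) ℂ) : Matrix (Fin r) (Fin r) ℂ) =
      A.adjugate.map R.subtype := by
    rw [Matrix.SpecialLinearGroup.coe_inv]
    exact (congrArg Matrix.adjugate (show (g : Matrix (Fin r) (Fin r) ℂ) = A.map R.subtype from rfl)).trans
      (RingHom.map_adjugate R.subtype A).symm
  rw [e]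
  exact (A.adjugate k l).2

/-- Matrices assembled from blocks. -/
def asm (b : Fin r → Fin r) (X : ∀ j, Matrix {k // b k = j} {k // b k = j} ℂ) :
    Matrix (Fin r) (Fin r) ℂ :=
  fun k l => if h : b l = b k then X (b k) ⟨k, rfl⟩ ⟨l, h⟩ else 0

theorem asm_bd (b : Fin r → Fin r) (X : ∀ j, Matrix {k // b k = j} {k // b k = j} ℂ) :
    BD b (asm b X) := fun k l h => dif_neg fun e => h e.symm

theorem asm_mul (b : Fin r → Fin r) (X Y : ∀ j, Matrix {k // b k = j} {k // b k = j} ℂ) :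
    asm b X * asm b Y = asm b fun j => X j * Y j := by
  ext k l
  rw [Matrix.mul_apply]
  by_cases h : b l = b k
  · rw [asm, dif_pos h, Matrix.mul_apply]
    refine (Finset.sum_filter_of_ne (p := fun i => b i = b k) fun i _ hi => by
      by_contra e
      exact hi (by simp [asm, e])).symm.trans ?_
    rw [Finset.sum_subtype (Finset.univ.filter fun i => b i = b k) (p := fun i => b i = b k)
      (by simp)]
    refine Finset.sum_congr rfl fun i _ => ?_
    obtain ⟨i, hi⟩ := i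
    simp only [asm]
    rw [dif_pos hi, dif_pos (h.trans hi.symm)]
    have key : ∀ (j : Fin r) (hj : b i = j) (hl : b l = b i),
        Y (b i) ⟨i, rfl⟩ ⟨l, hl⟩ = Y j ⟨i, hj⟩ ⟨l, hl.trans hj⟩ := by
      rintro _ rfl hl; rfl
    rw [key (b k) hi]
  · rw [asm, dif_neg h]
    refine Finset.sum_eq_zero fun i _ => ?_
    by_cases e : b i = b k
    · simp [asm, show ¬ b l = b i from fun h' => h (h'.trans e)]
    · simp [asm, e]

theorem asm_sub (b : Fin r → Fin r) {A : Matrix (Fin r) (Fin r) ℂ} (hA : BD b A) :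
    asm b (fun j => A.submatrix Subtype.val Subtype.val) = A := by
  ext k l
  by_cases h : b l = b k
  · simp [asm, h]
  · rw [asm, dif_neg h, hA k l fun e => h e.symm]

theorem asm_one (b : Fin r → Fin r) : asm b (fun _ => 1) = 1 := by
  ext k l
  by_cases h : b l = b k
  · simp [asm, h, Matrix.one_apply, Subtype.ext_iff]
  · rw [asm, dif_neg h, Matrix.one_apply_ne fun e => h (by rw [e])]

/-- The diagonal block of a label. -/
def corner (b : Fin r → Fin r) (j : Fin r) (A : Matrix (Fin r) (Fin r) ℂ) :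
    Matrix {k // b k = j} {k // b k = j} ℂ :=
  A.submatrix Subtype.val Subtype.val

theorem corner_pow {b : Fin r → Fin r} {A : Matrix (Fin r) (Fin r) ℂ} (hA : BD b A) (j : Fin r)
    (n : ℕ) : BD b (A ^ n) ∧ corner b j (A ^ n) = corner b j A ^ n := by
  induction n with
  | zero =>
    refine ⟨by simpa using bd_one b, ?_⟩
    rw [pow_zero, pow_zero]
    exact Matrix.submatrix_one _ Subtype.val_injective
  | succ n ih =>
    refine ⟨by rw [pow_succ]; exact bd_mul ih.1 hA, ?_⟩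
    rw [pow_succ, pow_succ, ← ih.2]
    ext x y
    simp only [corner, Matrix.submatrix_apply, Matrix.mul_apply]
    refine Eq.trans ?_ (Finset.sum_subtype (Finset.univ.filter fun i => b i = j) (by simp)
      fun i => (A ^ n) x i * A i y)
    refine (Finset.sum_filter_of_ne fun i _ hi => ?_).symm
    by_contra h
    exact hi (by rw [ih.1 x i (fun e => h (e ▸ x.2)), zero_mul])

theorem corner_nilpotent {b : Fin r → Fin r} {A : Matrix (Fin r) (Fin r) ℂ} (hA : BD b A)
    (j : Fin r) (M : ℕ) (h : IsNilpotent (A ^ M - 1)) :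
    IsNilpotent (corner b j A ^ M - 1) := by
  obtain ⟨m, hm⟩ := h
  refine ⟨m, ?_⟩
  have hbd : BD b (A ^ M - 1) := fun k l e => by
    rw [Matrix.sub_apply, (corner_pow hA j M).1 k l e, bd_one b k l e, sub_zero]
  have e : corner b j A ^ M - 1 = corner b j (A ^ M - 1) := by
    rw [← (corner_pow hA j M).2]
    ext x y
    simp [corner, Matrix.one_apply, Subtype.ext_iff]
  rw [e, ← (corner_pow hbd j m).2, hm]
  rfl

theorem exists_block_form_ring (b : Fin r → Fin r) (A : Matrix.SpecialLinearGroup (Fin r) ℂ)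
    (hA : BD b (A : Matrix (Fin r) (Fin r) ℂ)) {M : ℕ}
    (hn : IsNilpotent ((A : Matrix (Fin r) (Fin r) ℂ) ^ M - 1)) (R : Subring ℂ)
    (hR : ∀ z : ℂ, z ^ M = 1 → z ∈ R) :
    ∃ g J : Matrix.SpecialLinearGroup (Fin r) ℂ, BD b (g : Matrix (Fin r) (Fin r) ℂ) ∧
      BD b (J : Matrix (Fin r) (Fin r) ℂ) ∧ (∀ k l, (J : Matrix (Fin r) (Fin r) ℂ) k l ∈ R) ∧
      A = g * J * g⁻¹ := by
  classical
  choose P J hP hPJ hJ using fun j =>
    exists_ring_form _ (corner_nilpotent hA j M hn) R hR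
  have hPi : asm b P * asm b (fun j => (P j)⁻¹) = 1 := by
    rw [asm_mul, show (fun j => P j * (P j)⁻¹) = fun _ => 1 from funext fun j =>
      Matrix.mul_nonsing_inv _ (Ne.isUnit (hP j)), asm_one]
  have hdet : (asm b P).det ≠ 0 := fun h => by
    have := congrArg Matrix.det hPi
    simp [h] at this
  have hcomm : (A : Matrix (Fin r) (Fin r) ℂ) * asm b P = asm b P * asm b J := by
    rw [asm_mul]
    conv_lhs => rw [← asm_sub b hA]
    rw [asm_mul]
    exact congrArg _ (funext hPJ)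
  obtain ⟨u, hu⟩ : ∃ u : ℂ, u ^ r * (asm b P).det = 1 := by
    rcases Nat.eq_zero_or_pos r with hr | hr
    · subst hr; exact ⟨1, by simp⟩
    · obtain ⟨u, hu⟩ := IsAlgClosed.exists_pow_nat_eq ((asm b P).det)⁻¹ hr
      exact ⟨u, by rw [hu, inv_mul_cancel₀ hdet]⟩
  let g : Matrix.SpecialLinearGroup (Fin r) ℂ :=
    ⟨u • asm b P, by rw [Matrix.det_smul, Fintype.card_fin, hu]⟩
  have hJdet : (asm b J).det = 1 := by
    have := congrArg Matrix.det hcomm
    rw [Matrix.det_mul, Matrix.det_mul, Matrix.SpecialLinearGroup.det_coe, one_mul] at this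
    exact (mul_right_eq_self₀.1 this.symm).resolve_right hdet
  refine ⟨g, ⟨asm b J, hJdet⟩, fun k l h => by simp [g, asm_bd b P k l h], asm_bd b J,
    fun k l => ?_, ?_⟩
  · show asm b J k l ∈ R
    unfold asm
    split_ifs
    · exact hJ _ _ _
    · exact zero_mem R
  · rw [eq_mul_inv_iff_mul_eq]
    refine Subtype.ext ?_
    show (A : Matrix (Fin r) (Fin r) ℂ) * (u • asm b P) = (u • asm b P) * asm b J
    rw [Matrix.mul_smul, Matrix.smul_mul, hcomm]

/-- One-field density for a free group with classes prescribed on members of a basis. -/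
theorem density {Γ : Type} [Group Γ] {ι : Type} [Finite ι] (bas : FreeGroupBasis ι Γ) {s : ℕ}
    (γ : Fin s → Γ) (f : Fin s → ι) (hγ : ∀ i, IsConj (bas (f i)) (γ i))
    (c : Fin s → Matrix.SpecialLinearGroup (Fin r) ℂ)
    (hc : ∀ i, ∃ M : ℕ, 0 < M ∧ IsNilpotent ((c i : Matrix (Fin r) (Fin r) ℂ) ^ M - 1)) :
    ∃ L : IntermediateField ℚ ℂ, FiniteDimensional ℚ L ∧
      ∀ p : MvPolynomial (Γ × Fin r × Fin r) ℂ,
        (∀ (ρ ρ' : Γ →* Matrix.SpecialLinearGroup (Fin r) ℂ) (g : Matrix.SpecialLinearGroup (Fin r) ℂ),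
          (∀ a, ρ' a = g * ρ a * g⁻¹) →
          MvPolynomial.eval (fun t => (ρ' t.1 : Matrix (Fin r) (Fin r) ℂ) t.2.1 t.2.2) p =
            MvPolynomial.eval (fun t => (ρ t.1 : Matrix (Fin r) (Fin r) ℂ) t.2.1 t.2.2) p) →
        (∀ ρ : Γ →* Matrix.SpecialLinearGroup (Fin r) ℂ, SS ρ →
          (∀ i, IsConj (c i) (ρ (γ i))) →
          (∀ a i j, (ρ a : Matrix (Fin r) (Fin r) ℂ) i j ∈ L ∧
            IsIntegral ℤ ((ρ a : Matrix (Fin r) (Fin r) ℂ) i j)) →
          MvPolynomial.eval (fun t => (ρ t.1 : Matrix (Fin r) (Fin r) ℂ) t.2.1 t.2.2) p = 0) →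
        ∀ ρ : Γ →* Matrix.SpecialLinearGroup (Fin r) ℂ, SS ρ →
          (∀ i, IsConj (c i) (ρ (γ i))) →
          MvPolynomial.eval (fun t => (ρ t.1 : Matrix (Fin r) (Fin r) ℂ) t.2.1 t.2.2) p = 0 := by
  classical
  have := Fintype.ofFinite ι
  choose M hM hMn using hc
  obtain ⟨α, hαn, hαi, hαi', hαt, -⟩ := exists_alpha
  have hN : 0 < ∏ i, M i := Finset.prod_pos fun i _ => hM i
  let N : ℕ := ∏ i, M i
  let ξ : ℂ := Complex.exp (2 * Real.pi * Complex.I / N)
  have hξ : IsPrimitiveRoot ξ N := Complex.isPrimitiveRoot_exp N hN.ne'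
  let L : IntermediateField ℚ ℂ := IntermediateField.adjoin ℚ {α, ξ}
  have hξi : IsIntegral ℤ ξ := hξ.isIntegral hN
  have hfin : FiniteDimensional ℚ L := IntermediateField.finiteDimensional_adjoin (fun x hx => by
    rcases hx with rfl | rfl
    · exact hαi.tower_top
    · exact hξi.tower_top)
  let R : Subring ℂ := L.toSubfield.toSubring ⊓ (integralClosure ℤ ℂ).toSubring
  have hR : ∀ z : ℂ, z ∈ R ↔ z ∈ L ∧ IsIntegral ℤ z := fun z => Iff.rfl
  have hα0 : α ≠ 0 := fun h => by simp [h] at hαn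
  let A : ℂˣ := Units.mk0 α hα0
  have hAL : α ∈ L := IntermediateField.subset_adjoin ℚ _ (by simp)
  have hA : (A : ℂ) ∈ R := (hR _).2 ⟨hAL, hαi⟩
  have hA' : ((A⁻¹ : ℂˣ) : ℂ) ∈ R := (hR _).2
    ⟨by rw [Units.val_inv_eq_inv_val]; exact inv_mem hAL, by simpa [A] using hαi'⟩
  have hAinj : Function.Injective fun k : ℕ => A ^ k :=
    injective_pow_iff_not_isOfFinOrder.2 fun h => by
      obtain ⟨n, hn, hn1⟩ := h.exists_pow_eq_one
      exact hαt n hn (by simpa [A] using congrArg Units.val hn1)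
  refine ⟨L, hfin, fun p hinv hp ρ hss hρ => ?_⟩
  obtain ⟨P, b, hbd, hirr⟩ := exists_block_form ρ hss
  let ρ' : Γ →* Matrix.SpecialLinearGroup (Fin r) ℂ :=
    MonoidHom.mk' (fun a => P⁻¹ * ρ a * P) fun a c => by
      simp only [map_mul, mul_assoc, mul_inv_cancel_left]
  have hρ' : ∀ i, IsConj (c i) (ρ' (bas (f i))) := fun i =>
    ((hρ i).trans (ρ.map_isConj (hγ i)).symm).trans
      (isConj_iff.2 ⟨P⁻¹, by rw [inv_inv]; rfl⟩)
  have hnorm : ∀ i : ι, ∃ g J : Matrix.SpecialLinearGroup (Fin r) ℂ,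
      BD b (g : Matrix (Fin r) (Fin r) ℂ) ∧ BD b (J : Matrix (Fin r) (Fin r) ℂ) ∧
      (∀ k l, (J : Matrix (Fin r) (Fin r) ℂ) k l ∈ R) ∧
      ((∃ m, f m = i) → ρ' (bas i) = g * J * g⁻¹) ∧ (¬ (∃ m, f m = i) → J = 1) := by
    intro i
    by_cases hi : ∃ m, f m = i
    · obtain ⟨m, rfl⟩ := hi
      obtain ⟨C, hC⟩ := isConj_iff.1 (hρ' m)
      have hnil : IsNilpotent ((ρ' (bas (f m)) : Matrix (Fin r) (Fin r) ℂ) ^ M m - 1) := by
        obtain ⟨n, hn⟩ := hMn m
        refine ⟨n, ?_⟩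
        let u : (Matrix (Fin r) (Fin r) ℂ)ˣ := ⟨C, (C⁻¹ : Matrix.SpecialLinearGroup (Fin r) ℂ),
          by rw [← Matrix.SpecialLinearGroup.coe_mul, mul_inv_cancel]; rfl,
          by rw [← Matrix.SpecialLinearGroup.coe_mul, inv_mul_cancel]; rfl⟩
        have e : (ρ' (bas (f m)) : Matrix (Fin r) (Fin r) ℂ) ^ M m - 1 =
            (u : Matrix (Fin r) (Fin r) ℂ) * ((c m : Matrix (Fin r) (Fin r) ℂ) ^ M m - 1) *
              (u⁻¹ : (Matrix (Fin r) (Fin r) ℂ)ˣ) := by
          rw [← hC, Matrix.SpecialLinearGroup.coe_mul, Matrix.SpecialLinearGroup.coe_mul]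
          show ((u : Matrix (Fin r) (Fin r) ℂ) * _ * (u⁻¹ : (Matrix (Fin r) (Fin r) ℂ)ˣ)) ^ M m - 1 = _
          rw [Units.conj_pow, mul_sub, sub_mul, mul_one, Units.mul_inv]
        rw [e, Units.conj_pow, hn, mul_zero, zero_mul]
      obtain ⟨g, J, h1, h2, h3, h4⟩ := exists_block_form_ring b _ (hbd _) hnil R (fun z hz => by
        have hz' : z ^ N = 1 := by
          obtain ⟨t, ht⟩ : M m ∣ N := Finset.dvd_prod_of_mem _ (Finset.mem_univ m)
          rw [ht, pow_mul, hz, one_pow]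
        have : NeZero N := ⟨hN.ne'⟩
        obtain ⟨j, -, hj⟩ := hξ.eq_pow_of_pow_eq_one hz'
        exact (hR z).2 ⟨hj ▸ pow_mem (IntermediateField.subset_adjoin ℚ _ (by simp)) j,
          hj ▸ hξi.pow j⟩)
      exact ⟨g, J, h1, h2, h3, fun _ => h4, fun h => absurd ⟨m, rfl⟩ h⟩
    · refine ⟨1, 1, by simpa using bd_one b, by simpa using bd_one b, fun k l => ?_,
        fun h => absurd h hi, fun _ => rfl⟩
      rw [Matrix.SpecialLinearGroup.coe_one, Matrix.one_apply]
      split_ifs <;> simp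
  choose g J hg hJbd hJR hgJ hJ1 using hnorm
  let TT := ι → Matrix.SpecialLinearGroup (Fin r) ℂ
  let val : TT → ι → Matrix.SpecialLinearGroup (Fin r) ℂ := fun h i =>
    if ∃ m, f m = i then h i * J i * (h i)⁻¹ else h i
  let Ψ : TT → (Γ →* Matrix.SpecialLinearGroup (Fin r) ℂ) := fun h => bas.lift (val h)
  have hΨb : ∀ h i, Ψ h (bas i) = val h i := fun h i => by
    simp [Ψ, FreeGroupBasis.lift]
  have hind : ∀ (Q : Γ → Prop), Q 1 → (∀ i, Q (bas i)) → (∀ a, Q a → Q a⁻¹) →
      (∀ a a', Q a → Q a' → Q (a * a')) → ∀ a, Q a := by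
    intro Q h1 hb hi hm a
    obtain ⟨w, rfl⟩ := bas.repr.symm.surjective a
    induction w using FreeGroup.induction_on with
    | C1 => simpa using h1
    | of i => exact hb i
    | inv_of i h => rw [map_inv]; exact hi _ h
    | mul x y hx hy => rw [map_mul]; exact hm _ _ hx hy
  let Int' : Matrix.SpecialLinearGroup (Fin r) ℂ → Prop := fun x =>
    BD b (x : Matrix (Fin r) (Fin r) ℂ) ∧ ∀ k l, (x : Matrix (Fin r) (Fin r) ℂ) k l ∈ R
  have hIinv : ∀ x, Int' x → Int' x⁻¹ := fun x hx => ⟨bd_inv hx.1, entries_inv hx.2⟩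
  have hImul : ∀ x y, Int' x → Int' y → Int' (x * y) := fun x y hx hy =>
    ⟨by rw [Matrix.SpecialLinearGroup.coe_mul]; exact bd_mul hx.1 hy.1, fun k l => by
      rw [Matrix.SpecialLinearGroup.coe_mul, Matrix.mul_apply]
      exact sum_mem fun z _ => mul_mem (hx.2 _ _) (hy.2 _ _)⟩
  have hΨint : ∀ h : TT, (∀ i, Int' (h i)) → ∀ a, Int' (Ψ h a) := by
    intro h hh
    refine hind _ ?_ (fun i => ?_) (fun a ha => by rw [map_inv]; exact hIinv _ ha)
      (fun a a' ha ha' => by rw [map_mul]; exact hImul _ _ ha ha')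
    · rw [map_one]
      refine ⟨by simpa using bd_one b, fun k l => ?_⟩
      rw [Matrix.SpecialLinearGroup.coe_one, Matrix.one_apply]
      split_ifs <;> simp
    · rw [hΨb]
      simp only [val]
      split_ifs
      · exact hImul _ _ (hImul _ _ (hh i) ⟨hJbd i, hJR i⟩) (hIinv _ (hh i))
      · exact hh i
  -- entries are polynomial functions
  let Good : (TT → Matrix (Fin r) (Fin r) ℂ) → Prop := fun F =>
    ∀ k l, (fun h => F h k l) ∈ Pol ι r
  have hGmul : ∀ F F', Good F → Good F' → Good fun h => F h * F' h := fun F F' hF hF' k l => by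
    have : (fun h => (F h * F' h) k l) = ∑ z, (fun h => F h k z) * fun h => F' h z l := by
      funext h; simp [Matrix.mul_apply]
    rw [this]
    exact sum_mem fun z _ => mul_mem (hF k z) (hF' z l)
  have hGconst : ∀ X, Good fun _ => X := fun X k l => Subalgebra.algebraMap_mem _ (X k l)
  let ev : TT → (Pol ι r →+* ℂ) := fun h =>
    (Pi.evalRingHom (fun _ : TT => ℂ) h).comp (Pol ι r).toSubring.subtype
  have hGadj : ∀ F, Good F → Good fun h => (F h).adjugate := fun F hF k l => by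
    let Φ : Matrix (Fin r) (Fin r) (Pol ι r) := Matrix.of fun i j => ⟨_, hF i j⟩
    have : (fun h => (F h).adjugate k l) = ((Φ.adjugate k l : Pol ι r) : TT → ℂ) := by
      funext h
      have h1 := congrFun (congrFun (RingHom.map_adjugate (ev h) Φ) k) l
      exact h1.symm
    rw [this]
    exact (Φ.adjugate k l).2
  have hGh : ∀ i, Good fun h => (h i : Matrix (Fin r) (Fin r) ℂ) := fun i k l => coord_mem_pol i k l
  have hΨpol : ∀ a, Good fun h => (Ψ h a : Matrix (Fin r) (Fin r) ℂ) := by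
    refine hind _ ?_ (fun i => ?_) (fun a ha => ?_) (fun a a' ha ha' => ?_)
    · simpa using hGconst 1
    · simp only [hΨb, val]
      split_ifs
      · simp only [Matrix.SpecialLinearGroup.coe_mul, Matrix.SpecialLinearGroup.coe_inv]
        exact hGmul _ _ (hGmul _ _ (hGh i) (hGconst _)) (hGadj _ (hGh i))
      · exact hGh i
    · simp only [map_inv, Matrix.SpecialLinearGroup.coe_inv]
      exact hGadj _ ha
    · simp only [map_mul, Matrix.SpecialLinearGroup.coe_mul]
      exact hGmul _ _ ha ha'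
  -- openness of irreducibility
  let Pr := {q : Fin r × Fin r // b q.1 = b q.2}
  have hX : ∀ q : Pr, ∃ z : Γ →₀ ℂ, ∀ k' l', b k' = b q.1.1 → b l' = b q.1.1 →
      (z.sum fun a t => t * (ρ' a : Matrix (Fin r) (Fin r) ℂ) k' l') =
        if k' = q.1.1 ∧ l' = q.1.2 then 1 else 0 := by
    intro q
    obtain ⟨X, hX, hXe⟩ := hirr q.1.1 q.1.2 q.2
    obtain ⟨z, hz⟩ := Finsupp.mem_span_range_iff_exists_finsupp.1 hX
    refine ⟨z, fun k' l' hk' hl' => ?_⟩
    rw [← hXe k' l' hk' hl', ← hz]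
    simp only [Finsupp.sum, Matrix.sum_apply, Matrix.smul_apply, smul_eq_mul]
    rfl
  choose z hz using hX
  let T : TT → Matrix Pr Pr ℂ := fun h => Matrix.of fun q q' =>
    if b q'.1.1 = b q.1.1 then
      (z q).sum fun a t => t * (Ψ h a : Matrix (Fin r) (Fin r) ℂ) q'.1.1 q'.1.2 else 0
  have hTpol : (fun h => (T h).det) ∈ Pol ι r := by
    have hent : ∀ q q', (fun h => T h q q') ∈ Pol ι r := fun q q' => by
      by_cases e : b q'.1.1 = b q.1.1
      · have : (fun h => T h q q') =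
            ∑ a ∈ (z q).support, z q a • fun h => (Ψ h a : Matrix (Fin r) (Fin r) ℂ) q'.1.1 q'.1.2 := by
          funext h; simp [T, e, Finsupp.sum]
        rw [this]
        exact sum_mem fun a _ => Subalgebra.smul_mem _ (hΨpol a _ _) _
      · have : (fun h => T h q q') = 0 := by funext h; simp [T, e]
        rw [this]; exact zero_mem _
    let Φ : Matrix Pr Pr (Pol ι r) := Matrix.of fun q q' => ⟨_, hent q q'⟩
    have : (fun h => (T h).det) = ((Φ.det : Pol ι r) : TT → ℂ) := by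
      funext h
      exact (RingHom.map_det (ev h) Φ).symm
    rw [this]
    exact Φ.det.2
  let F : TT → ℂ := fun h => (T h).det *
    MvPolynomial.eval (fun t => (Ψ h t.1 : Matrix (Fin r) (Fin r) ℂ) t.2.1 t.2.2) p
  have hFpol : F ∈ Pol ι r := by
    refine mul_mem hTpol ?_
    have hev : ∀ p : MvPolynomial (Γ × Fin r × Fin r) ℂ, (fun h : TT =>
        MvPolynomial.eval (fun t => (Ψ h t.1 : Matrix (Fin r) (Fin r) ℂ) t.2.1 t.2.2) p) ∈ Pol ι r := by
      intro p
      induction p using MvPolynomial.induction_on with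
      | C a =>
        simp only [MvPolynomial.eval_C]
        exact Subalgebra.algebraMap_mem (Pol ι r) a
      | add p q hp hq =>
        simp only [map_add]
        exact add_mem hp hq
      | mul_X p t hp =>
        simp only [map_mul, MvPolynomial.eval_X]
        exact mul_mem hp (hΨpol t.1 t.2.1 t.2.2)
    exact hev p
  have hsemi : ∀ h : TT, (∀ a, BD b (Ψ h a : Matrix (Fin r) (Fin r) ℂ)) → (T h).det ≠ 0 →
      SS (Ψ h) := by
    intro h hh hdet
    refine ss_of_blocks _ b hh fun k l hkl => ?_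
    let q : Pr := ⟨(k, l), hkl⟩
    let w : Pr → ℂ := fun q' => if b q'.1.1 = b k then (T h)⁻¹ q q' else 0
    refine ⟨∑ q', w q' • (z q').sum fun a t => t • (Ψ h a : Matrix (Fin r) (Fin r) ℂ),
      sum_mem fun q' _ => Submodule.smul_mem _ _ (sum_mem fun a _ =>
        Submodule.smul_mem _ _ (Submodule.subset_span ⟨a, rfl⟩)), fun k' l' hk' hl' => ?_⟩
    let q₁ : Pr := ⟨(k', l'), hk'.trans hl'.symm⟩
    have h1 := congrFun (congrFun (Matrix.nonsing_inv_mul (T h) (Ne.isUnit hdet)) q) q₁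
    rw [Matrix.mul_apply, Matrix.one_apply] at h1
    have hiff : (k' = k ∧ l' = l) ↔ q = q₁ :=
      ⟨fun h' => Subtype.ext (Prod.ext h'.1.symm h'.2.symm),
        fun h' => ⟨(congrArg (fun x : Pr => x.1.1) h').symm,
          (congrArg (fun x : Pr => x.1.2) h').symm⟩⟩
    simp only [hiff]
    rw [← h1, Matrix.sum_apply]
    refine Finset.sum_congr rfl fun q' _ => ?_
    simp only [w, T, Matrix.of_apply, q₁, Matrix.smul_apply, smul_eq_mul]
    by_cases e : b q'.1.1 = b k
    · rw [if_pos e, if_pos (hk'.trans e.symm)]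
      simp [Finsupp.sum, Matrix.sum_apply]
    · rw [if_neg e, if_neg fun e' : b k' = b q'.1.1 => e (e'.symm.trans hk')]
      simp
  have h0 : ∀ h : TT, (∀ i, Int' (h i)) → F h = 0 := by
    intro h hh
    by_cases hdet : (T h).det = 0
    · simp [F, hdet]
    refine mul_eq_zero_of_right _ (hp (Ψ h) (hsemi h (fun a => (hΨint h hh a).1) hdet) (fun i => ?_)
      fun a k l => (hR _).1 ((hΨint h hh a).2 k l))
    refine IsConj.trans ?_ ((Ψ h).map_isConj (hγ i))
    refine (hρ' i).trans ?_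
    rw [hΨb, hgJ (f i) ⟨i, rfl⟩]
    simp only [val, if_pos (⟨i, rfl⟩ : ∃ m, f m = f i)]
    exact isConj_iff.2 ⟨h (f i) * (g (f i))⁻¹, by group⟩
  let h₀ : TT := fun i => if ∃ m, f m = i then g i else ρ' (bas i)
  have hh₀ : ∀ i, BD b (h₀ i : Matrix (Fin r) (Fin r) ℂ) := fun i => by
    simp only [h₀]
    split_ifs
    · exact hg i
    · exact hbd _
  have hΨ₀ : Ψ h₀ = ρ' := bas.ext_hom _ _ fun i => by
    rw [hΨb]
    simp only [val, h₀]
    split_ifs with hi
    · exact (hgJ i hi).symm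
    · rfl
  have hT₀ : T h₀ = 1 := by
    ext q q'
    simp only [T, Matrix.of_apply, hΨ₀, Matrix.one_apply]
    by_cases e : b q'.1.1 = b q.1.1
    · rw [if_pos e, hz q _ _ e (q'.2.symm.trans e)]
      exact if_congr ⟨fun h' => Subtype.ext (Prod.ext h'.1.symm h'.2.symm),
        fun h' => ⟨(congrArg (fun x : Pr => x.1.1) h').symm,
          (congrArg (fun x : Pr => x.1.2) h').symm⟩⟩ rfl rfl
    · rw [if_neg e, if_neg fun h : q = q' => e (by rw [h])]
  have key := vanish b R A hA hA' hAinj F hFpol h0 h₀ hh₀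
  simp only [F, hT₀, Matrix.det_one, one_mul, hΨ₀] at key
  rw [← key]
  exact hinv ρ' ρ P fun a => by
    show ρ a = P * (P⁻¹ * ρ a * P) * P⁻¹
    group

end Vale.Agent.P002.Free
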